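import Mathlib

/-!
Combinatorics of the forest with one countably branching tree of height `n` for each `n`.
-/

namespace Vale.Agent.P069

open Finset
open scoped Classical

/-- A node of the forest: the index of a tree and a finite list of length at most that index. -/
abbrev Node : Type := {p : ℕ × List ℕ // p.2.length ≤ p.1}

/-- The tree of a node. -/
def tree (t : Node) : ℕ := t.1.1

/-- The level of a node. -/
def lev (t : Node) : ℕ := t.1.2.length

theorem lev_le_tree (t : Node) : lev t ≤ tree t := t.2

/-- The ancestor at level `j` (the node itself if `j` exceeds its level). -/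
def anc (t : Node) (j : ℕ) : Node :=
  ⟨(t.1.1, t.1.2.drop (t.1.2.length - j)), by
    have := t.2
    simp only [List.length_drop]
    omega⟩

@[simp] theorem tree_anc (t : Node) (j : ℕ) : tree (anc t j) = tree t := rfl

@[simp] theorem lev_anc (t : Node) (j : ℕ) : lev (anc t j) = min j (lev t) := by
  simp only [lev, anc, List.length_drop]
  omega

theorem anc_of_le (t : Node) {j : ℕ} (h : lev t ≤ j) : anc t j = t := by
  apply Subtype.ext
  have : t.1.2.length - j = 0 := by simp only [lev] at h; omega
  simp [anc, this]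

@[simp] theorem anc_self (t : Node) : anc t (lev t) = t := anc_of_le t le_rfl

theorem anc_anc (t : Node) (j k : ℕ) : anc (anc t j) k = anc t (min j k) := by
  apply Subtype.ext
  simp only [anc, List.length_drop, List.drop_drop, Prod.mk.injEq, true_and]
  congr 1
  omega

theorem anc_anc_of_le (t : Node) {j k : ℕ} (h : k ≤ j) : anc (anc t j) k = anc t k := by
  rw [anc_anc, min_eq_right h]

/-- A set of nodes is down-closed if it contains all ancestors of its elements. -/
def Down (A : Finset Node) : Prop := ∀ t ∈ A, ∀ j, anc t j ∈ A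

/-- The finite down-closure. -/
noncomputable def downCl (A : Finset Node) : Finset Node :=
  A.biUnion fun t => (range (lev t + 1)).image (anc t)

theorem subset_downCl (A : Finset Node) : A ⊆ downCl A := by
  intro t ht
  exact mem_biUnion.2 ⟨t, ht, mem_image.2 ⟨lev t, by simp, anc_self t⟩⟩

theorem down_downCl (A : Finset Node) : Down (downCl A) := by
  intro t ht j
  obtain ⟨u, hu, hv⟩ := mem_biUnion.1 ht
  obtain ⟨k, hk, rfl⟩ := mem_image.1 hv
  refine mem_biUnion.2 ⟨u, hu, mem_image.2 ⟨min k j, ?_, (anc_anc u k j).symm⟩⟩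
  simp only [mem_range] at hk ⊢
  omega

/-- A segment: the nodes on the chain below `bot` from level `lo` to the level of `bot`. -/
structure Seg where
  bot : Node
  lo : ℕ
  hlo : lo ≤ lev bot

/-- The nodes of a segment. -/
noncomputable def Seg.nodes (S : Seg) : Finset Node := (Icc S.lo (lev S.bot)).image (anc S.bot)

theorem Seg.mem_nodes {S : Seg} {t : Node} :
    t ∈ S.nodes ↔ S.lo ≤ lev t ∧ lev t ≤ lev S.bot ∧ anc S.bot (lev t) = t := by
  constructor
  · intro h
    obtain ⟨j, hj, rfl⟩ := mem_image.1 h
    simp only [mem_Icc] at hj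
    simp [hj.1, hj.2]
  · rintro ⟨h1, h2, h3⟩
    exact mem_image.2 ⟨lev t, mem_Icc.2 ⟨h1, h2⟩, h3⟩

theorem Seg.anc_mem_nodes (S : Seg) {j : ℕ} (h1 : S.lo ≤ j) (h2 : j ≤ lev S.bot) :
    anc S.bot j ∈ S.nodes :=
  mem_image.2 ⟨j, mem_Icc.2 ⟨h1, h2⟩, rfl⟩

theorem Seg.bot_mem_nodes (S : Seg) : S.bot ∈ S.nodes := by
  simpa using S.anc_mem_nodes S.hlo le_rfl

theorem Seg.tree_of_mem {S : Seg} {t : Node} (h : t ∈ S.nodes) : tree t = tree S.bot := by
  obtain ⟨j, -, rfl⟩ := mem_image.1 h
  rfl

/-- The segment consisting of a single node. -/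
def Seg.point (t : Node) : Seg := ⟨t, lev t, le_rfl⟩

@[simp] theorem Seg.nodes_point (t : Node) : (Seg.point t).nodes = {t} := by
  simp [Seg.point, Seg.nodes]

/-- The sum of a function over a segment. -/
noncomputable def segSum (f : Node → ℝ) (S : Seg) : ℝ := ∑ t ∈ S.nodes, f t

/-- Partial sums of a function along the chain below a node. -/
noncomputable def chainSum (f : Node → ℝ) (b : Node) (j : ℕ) : ℝ :=
  ∑ k ∈ range j, f (anc b k)

theorem chainSum_anc (f : Node → ℝ) (b : Node) {j k : ℕ} (h : k ≤ j + 1) :
    chainSum f (anc b j) k = chainSum f b k := by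
  refine sum_congr rfl fun i hi => ?_
  simp only [mem_range] at hi
  rw [anc_anc_of_le b (by omega)]

theorem segSum_eq (f : Node → ℝ) (S : Seg) :
    segSum f S = ∑ j ∈ Icc S.lo (lev S.bot), f (anc S.bot j) := by
  rw [segSum, Seg.nodes, sum_image]
  intro a ha b hb hab
  simp only [coe_Icc, Set.mem_Icc] at ha hb
  have := congrArg lev hab
  simp only [lev_anc] at this
  omega

theorem segSum_eq_chainSum (f : Node → ℝ) (S : Seg) :
    segSum f S = chainSum f S.bot (lev S.bot + 1) - chainSum f S.bot S.lo := by
  rw [segSum_eq, chainSum, chainSum, ← sum_Ico_eq_sub _ (by have := S.hlo; omega)]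
  congr 1

theorem segSum_congr {f g : Node → ℝ} {S : Seg} (h : ∀ t ∈ S.nodes, f t = g t) :
    segSum f S = segSum g S := sum_congr rfl h

/-- Pairwise disjointness of a finite family of segments. -/
def Disj (F : Finset Seg) : Prop := (F : Set Seg).PairwiseDisjoint Seg.nodes

theorem Disj.eq_of_mem {F : Finset Seg} (hF : Disj F) {S S' : Seg} (hS : S ∈ F) (hS' : S' ∈ F)
    {t : Node} (h : t ∈ S.nodes) (h' : t ∈ S'.nodes) : S = S' := by
  by_contra hne
  exact disjoint_left.1 (hF hS hS' hne) h h'

/-- All squared segment sums over disjoint families are at most one. -/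
def Bd (f : Node → ℝ) : Prop := ∀ F : Finset Seg, Disj F → ∑ S ∈ F, segSum f S ^ 2 ≤ 1

theorem Bd.indexed {f : Node → ℝ} (hf : Bd f) {ι : Type*} (s : Finset ι) (g : ι → Seg)
    (hg : (s : Set ι).PairwiseDisjoint fun i => (g i).nodes) :
    ∑ i ∈ s, segSum f (g i) ^ 2 ≤ 1 := by
  have hinj : Set.InjOn g s := by
    intro a ha b hb hab
    by_contra hne
    have h := hg ha hb hne
    simp only [Function.onFun, hab, disjoint_self, bot_eq_empty] at h
    exact absurd (g b).bot_mem_nodes (by simp [h])
  rw [← sum_image (f := fun S => segSum f S ^ 2) hinj]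
  apply hf
  intro a ha b hb hne
  simp only [coe_image, Set.mem_image] at ha hb
  obtain ⟨x, hx, rfl⟩ := ha
  obtain ⟨y, hy, rfl⟩ := hb
  exact hg hx hy fun h => hne (by rw [h])

/-- Boundedness passes to a function whose segment sums are segment sums over sub-segments. -/
theorem Bd.sub {f f' : Node → ℝ} (hf : Bd f)
    (h : ∀ S, segSum f' S = 0 ∨ ∃ S', S'.nodes ⊆ S.nodes ∧ segSum f' S = segSum f S') :
    Bd f' := by
  intro F hF
  have h2 : ∀ S, segSum f' S ≠ 0 → ∃ S', S'.nodes ⊆ S.nodes ∧ segSum f' S = segSum f S' :=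
    fun S hS => (h S).resolve_left hS
  choose! g hsub heq using h2
  rw [← sum_filter_of_ne (p := fun S => segSum f' S ≠ 0) (fun S _ hS => fun h0 => hS (by simp [h0]))]
  calc ∑ S ∈ F.filter (fun S => segSum f' S ≠ 0), segSum f' S ^ 2
      = ∑ S ∈ F.filter (fun S => segSum f' S ≠ 0), segSum f (g S) ^ 2 :=
        sum_congr rfl fun S hS => by rw [heq S (mem_filter.1 hS).2]
    _ ≤ 1 := by
      refine hf.indexed _ g ?_
      intro a ha b hb hne
      rw [mem_coe, mem_filter] at ha hb
      exact (hF ha.1 hb.1 hne).mono (hsub a ha.2) (hsub b hb.2)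

/-- The first level at which the chain below `b` has left `A`. -/
noncomputable def cut (A : Finset Node) (b : Node) : ℕ :=
  Nat.find (p := fun j => lev b < j ∨ anc b j ∉ A) ⟨lev b + 1, Or.inl (Nat.lt_succ_self _)⟩

theorem cut_le (A : Finset Node) (b : Node) : cut A b ≤ lev b + 1 :=
  Nat.find_min' _ (Or.inl (Nat.lt_succ_self _))

theorem mem_iff_lt_cut {A : Finset Node} (hA : Down A) (b : Node) {j : ℕ} (hj : j ≤ lev b) :
    anc b j ∈ A ↔ j < cut A b := by
  constructor
  · intro h
    by_contra hlt
    push Not at hlt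
    have := Nat.find_spec (p := fun j => lev b < j ∨ anc b j ∉ A)
      ⟨lev b + 1, Or.inl (Nat.lt_succ_self _)⟩
    rcases this with h1 | h1
    · change lev b < cut A b at h1
      omega
    · apply h1
      change anc b (cut A b) ∈ A
      rw [← anc_anc_of_le b hlt]
      exact hA _ h _
  · intro h
    have := Nat.find_min (p := fun j => lev b < j ∨ anc b j ∉ A)
      ⟨lev b + 1, Or.inl (Nat.lt_succ_self _)⟩ h
    push Not at this
    exact this.2

theorem cut_anc {A : Finset Node} (hA : Down A) (b : Node) {j : ℕ} (hj : j ≤ lev b)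
    (h : anc b j ∉ A) : cut A (anc b j) = cut A b := by
  have h1 : cut A b ≤ j := by
    by_contra hc
    exact h ((mem_iff_lt_cut hA b hj).2 (not_le.1 hc))
  have hl : lev (anc b j) = j := by simp [hj]
  have h2 : cut A (anc b j) ≤ j := by
    by_contra hc
    apply h
    have := (mem_iff_lt_cut hA (anc b j) hl.ge).2 (not_le.1 hc)
    rwa [anc_anc_of_le b le_rfl] at this
  apply le_antisymm
  · by_contra hc
    push Not at hc
    have := (mem_iff_lt_cut hA (anc b j) (j := cut A b) (by omega)).2 hc
    rw [anc_anc_of_le b h1] at this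
    exact lt_irrefl _ ((mem_iff_lt_cut hA b (by omega)).1 this)
  · by_contra hc
    push Not at hc
    have := (mem_iff_lt_cut hA b (j := cut A (anc b j)) (by omega)).2 hc
    rw [← anc_anc_of_le b h2] at this
    exact lt_irrefl _ ((mem_iff_lt_cut hA (anc b j) (by omega)).1 this)

/-- The part of a function inside a set. -/
noncomputable def inside (A : Finset Node) (f : Node → ℝ) : Node → ℝ :=
  fun t => if t ∈ A then f t else 0

/-- The part of a function outside a set. -/
noncomputable def outside (A : Finset Node) (f : Node → ℝ) : Node → ℝ :=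
  fun t => if t ∈ A then 0 else f t

theorem Bd.inside {f : Node → ℝ} (hf : Bd f) {A : Finset Node} (hA : Down A) :
    Bd (inside A f) := by
  refine hf.sub fun S => ?_
  by_cases h : S.lo < cut A S.bot
  · right
    have hc := cut_le A S.bot
    have hS := S.hlo
    refine ⟨⟨anc S.bot (cut A S.bot - 1), S.lo, by rw [lev_anc]; omega⟩, ?_, ?_⟩
    · intro t ht
      obtain ⟨j, hj, rfl⟩ := mem_image.1 ht
      simp only [mem_Icc, lev_anc] at hj
      rw [anc_anc_of_le _ (by omega)]
      exact S.anc_mem_nodes hj.1 (by omega)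
    · rw [segSum_eq, segSum_eq]
      simp only [lev_anc]
      rw [min_eq_left (by omega)]
      symm
      rw [← sum_subset (s₁ := Icc S.lo (cut A S.bot - 1)) (s₂ := Icc S.lo (lev S.bot))]
      · refine sum_congr rfl fun j hj => ?_
        simp only [mem_Icc] at hj
        rw [anc_anc_of_le _ hj.2]
        simp [Vale.Agent.P069.inside, mem_iff_lt_cut hA S.bot (j := j) (by omega),
          show j < cut A S.bot by omega]
      · intro j hj
        simp only [mem_Icc] at hj ⊢
        omega
      · intro j hj hj'
        simp only [mem_Icc] at hj hj'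
        simp [Vale.Agent.P069.inside, mem_iff_lt_cut hA S.bot hj.2,
          show ¬ j < cut A S.bot by omega]
  · left
    rw [segSum_eq]
    refine sum_eq_zero fun j hj => ?_
    simp only [mem_Icc] at hj
    simp [Vale.Agent.P069.inside, mem_iff_lt_cut hA S.bot hj.2,
      show ¬ j < cut A S.bot by omega]

theorem Bd.outside {f : Node → ℝ} (hf : Bd f) {A : Finset Node} (hA : Down A) :
    Bd (outside A f) := by
  refine hf.sub fun S => ?_
  by_cases h : max S.lo (cut A S.bot) ≤ lev S.bot
  · right
    refine ⟨⟨S.bot, max S.lo (cut A S.bot), h⟩, ?_, ?_⟩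
    · intro t ht
      obtain ⟨j, hj, rfl⟩ := mem_image.1 ht
      simp only [mem_Icc] at hj
      exact S.anc_mem_nodes (by omega) hj.2
    · rw [segSum_eq, segSum_eq]
      symm
      rw [← sum_subset (s₁ := Icc (max S.lo (cut A S.bot)) (lev S.bot))
        (s₂ := Icc S.lo (lev S.bot))]
      · refine sum_congr rfl fun j hj => ?_
        simp only [mem_Icc] at hj
        simp [Vale.Agent.P069.outside, mem_iff_lt_cut hA S.bot hj.2,
          show ¬ j < cut A S.bot by omega]
      · intro j hj
        simp only [mem_Icc] at hj ⊢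
        omega
      · intro j hj hj'
        simp only [mem_Icc] at hj hj'
        simp [Vale.Agent.P069.outside, mem_iff_lt_cut hA S.bot hj.2,
          show j < cut A S.bot by omega]
  · left
    rw [segSum_eq]
    refine sum_eq_zero fun j hj => ?_
    simp only [mem_Icc] at hj
    simp [Vale.Agent.P069.outside, mem_iff_lt_cut hA S.bot hj.2,
      show j < cut A S.bot by omega]

/-- A bounded function stays bounded when kept only on a union of whole trees. -/
theorem Bd.trees {f : Node → ℝ} (hf : Bd f) (P : ℕ → Prop) :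
    Bd (fun t => if P (tree t) then f t else 0) := by
  refine hf.sub fun S => ?_
  by_cases h : P (tree S.bot)
  · exact Or.inr ⟨S, subset_rfl, segSum_congr fun t ht => by simp [Seg.tree_of_mem ht, h]⟩
  · exact Or.inl (sum_eq_zero fun t ht => by simp [Seg.tree_of_mem ht, h])

end Vale.Agent.P069
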