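import Mathlib
import Vale.Agent.P069.Tree

/-!
The space generated by atoms supported on disjoint families of segments.
-/

namespace Vale.Agent.P069

open Finset
open scoped Classical ENNReal NNReal

/-- An atom: coefficients on a disjoint family of segments with square sum at most one. -/
structure Atom where
  F : Finset Seg
  disj : Disj F
  c : Seg → ℝ
  hc : ∑ S ∈ F, c S ^ 2 ≤ 1

/-- The function on nodes represented by an atom. -/
noncomputable def Atom.val (a : Atom) (t : Node) : ℝ :=
  ∑ S ∈ a.F, if t ∈ S.nodes then a.c S else 0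

/-- The pairing of a function with an atom. -/
noncomputable def Atom.pair (a : Atom) (f : Node → ℝ) : ℝ := ∑ S ∈ a.F, a.c S * segSum f S

theorem Atom.abs_pair_le (a : Atom) {f : Node → ℝ} (hf : Bd f) : |a.pair f| ≤ 1 := by
  have h1 : |a.pair f| ≤ ∑ S ∈ a.F, (a.c S ^ 2 + segSum f S ^ 2) / 2 := by
    refine (abs_sum_le_sum_abs _ _).trans (sum_le_sum fun S _ => ?_)
    rw [abs_le]
    constructor <;> nlinarith [sq_nonneg (a.c S - segSum f S), sq_nonneg (a.c S + segSum f S)]
  have h2 := hf a.F a.disj
  have h3 := a.hc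
  rw [← sum_div, sum_add_distrib] at h1
  linarith

theorem Atom.abs_val_le (a : Atom) (t : Node) : |a.val t| ≤ 1 := by
  unfold Atom.val
  rw [← sum_filter]
  by_cases h : (a.F.filter fun S => t ∈ S.nodes).Nonempty
  · obtain ⟨S, hS⟩ := h
    simp only [mem_filter] at hS
    have : (a.F.filter fun S => t ∈ S.nodes) = {S} := by
      ext S'
      simp only [mem_filter, mem_singleton]
      exact ⟨fun h' => a.disj.eq_of_mem h'.1 hS.1 h'.2 hS.2, fun h' => h' ▸ hS⟩
    rw [this, sum_singleton]
    have hle : a.c S ^ 2 ≤ 1 :=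
      le_trans (single_le_sum (f := fun S => a.c S ^ 2) (fun _ _ => sq_nonneg _) hS.1) a.hc
    rw [abs_le]
    constructor <;> nlinarith
  · simp [not_nonempty_iff_eq_empty.1 h]

/-- The space of absolutely summable coefficient families on atoms. -/
abbrev W : Type := lp (fun _ : Atom => ℝ) 1

theorem summable_norm_W (w : W) : Summable fun a => |w a| := by
  simpa using (lp.memℓp w).summable (p := 1) (by simp)

theorem norm_W (w : W) : ‖w‖ = ∑' a, |w a| := by
  simpa using lp.norm_eq_tsum_rpow (p := 1) (by simp) w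

theorem summable_coord (w : W) (t : Node) : Summable fun a => w a * a.val t := by
  refine Summable.of_norm_bounded (summable_norm_W w) fun a => ?_
  rw [Real.norm_eq_abs, abs_mul]
  exact mul_le_of_le_one_right (abs_nonneg _) (a.abs_val_le t)

/-- The coordinate at a node, on coefficient families. -/
noncomputable def coordW (t : Node) : W →L[ℝ] ℝ :=
  LinearMap.mkContinuous
    { toFun := fun w => ∑' a, w a * a.val t
      map_add' := fun v w => by
        rw [← (summable_coord v t).tsum_add (summable_coord w t)]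
        exact tsum_congr fun a => by simp [add_mul]
      map_smul' := fun r w => by
        simp only [RingHom.id_apply, smul_eq_mul, ← tsum_mul_left]
        exact tsum_congr fun a => by simp [mul_assoc] }
    1 fun w => by
      rw [one_mul, norm_W, Real.norm_eq_abs]
      refine tsum_of_norm_bounded (f := fun a => w a * a.val t) (summable_norm_W w).hasSum
        fun a => ?_
      rw [Real.norm_eq_abs, abs_mul]
      exact mul_le_of_le_one_right (abs_nonneg _) (a.abs_val_le t)

theorem coordW_apply (t : Node) (w : W) : coordW t w = ∑' a, w a * a.val t := rfl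

/-- Coefficient families representing the zero function. -/
noncomputable def K : Submodule ℝ W := ⨅ t, LinearMap.ker (coordW t : W →ₗ[ℝ] ℝ)

theorem mem_K {w : W} : w ∈ K ↔ ∀ t, coordW t w = 0 := by
  simp [K]

instance isClosed_K : IsClosed (K : Set W) := by
  have : (K : Set W) = ⋂ t, {w : W | coordW t w = 0} := by
    ext w
    simp [mem_K]
  rw [this]
  exact isClosed_iInter fun t => isClosed_eq (coordW t).continuous continuous_const

/-- The counterexample space. -/
def X : Type := W ⧸ K

noncomputable instance instNormedAddCommGroupX : NormedAddCommGroup X :=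
  inferInstanceAs (NormedAddCommGroup (W ⧸ K))

noncomputable instance instNormedSpaceX : NormedSpace ℝ X :=
  inferInstanceAs (NormedSpace ℝ (W ⧸ K))

instance instCompleteSpaceX : CompleteSpace X :=
  inferInstanceAs (CompleteSpace (W ⧸ K))

/-- The quotient map. -/
noncomputable def quo : W →L[ℝ] X :=
  LinearMap.mkContinuous K.mkQ 1 fun w => by
    rw [one_mul]
    exact Submodule.Quotient.norm_mk_le K w

theorem quo_apply (w : W) : quo w = Submodule.Quotient.mk w := rfl

theorem quo_surj (x : X) : ∃ w, quo w = x := Submodule.Quotient.mk_surjective K x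

theorem exists_lift (x : X) {ε : ℝ} (hε : 0 < ε) : ∃ w, quo w = x ∧ ‖w‖ < ‖x‖ + ε :=
  Submodule.Quotient.norm_mk_lt x hε

/-- The coordinate at a node. -/
noncomputable def coord (t : Node) : X →L[ℝ] ℝ :=
  LinearMap.mkContinuous
    (K.liftQ (coordW t : W →ₗ[ℝ] ℝ) fun _w hw => mem_K.1 hw t) 1 fun x => by
      rw [one_mul]
      refine le_of_forall_pos_le_add fun ε hε => ?_
      obtain ⟨w, rfl, hw⟩ := exists_lift x hε
      change ‖coordW t w‖ ≤ _
      refine le_trans ?_ hw.le
      rw [Real.norm_eq_abs, coordW_apply, norm_W, ← Real.norm_eq_abs]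
      refine tsum_of_norm_bounded (summable_norm_W w).hasSum fun a => ?_
      rw [Real.norm_eq_abs, abs_mul]
      exact mul_le_of_le_one_right (abs_nonneg _) (a.abs_val_le t)

theorem coord_quo (t : Node) (w : W) : coord t (quo w) = coordW t w := rfl

theorem norm_coord_le (t : Node) : ‖coord t‖ ≤ 1 :=
  LinearMap.mkContinuous_norm_le _ zero_le_one _

theorem ext_coord {x y : X} (h : ∀ t, coord t x = coord t y) : x = y := by
  obtain ⟨v, rfl⟩ := quo_surj x
  obtain ⟨w, rfl⟩ := quo_surj y
  refine (Submodule.Quotient.eq K).2 (mem_K.2 ?_)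
  intro t
  rw [map_sub, sub_eq_zero]
  exact h t

/-- The element of the space given by an atom. -/
noncomputable def el (a : Atom) : X := quo (lp.single 1 a 1)

theorem norm_el_le (a : Atom) : ‖el a‖ ≤ 1 := by
  refine (Submodule.Quotient.norm_mk_le K _).trans ?_
  rw [lp.norm_single (by norm_num)]
  simp

theorem coord_el (t : Node) (a : Atom) : coord t (el a) = a.val t := by
  rw [el, coord_quo, coordW_apply, tsum_eq_single a]
  · simp
  · intro b hb
    simp [Pi.single_eq_of_ne hb]

/-- The atom of a single segment. -/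
noncomputable def segAtom (S : Seg) : Atom :=
  ⟨{S}, by simp [Disj], fun _ => 1, by simp⟩

/-- The unit vector at a node. -/
noncomputable def ev (t : Node) : X := el (segAtom (Seg.point t))

theorem norm_ev_le (t : Node) : ‖ev t‖ ≤ 1 := norm_el_le _

theorem coord_ev (s t : Node) : coord s (ev t) = if s = t then 1 else 0 := by
  by_cases h : s = t <;> simp [ev, coord_el, Atom.val, segAtom, Finset.filter_singleton, h]

theorem coord_sum_ev (s : Node) (A : Finset Node) (v : Node → ℝ) :
    coord s (∑ t ∈ A, v t • ev t) = if s ∈ A then v s else 0 := by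
  simp [map_sum, coord_ev]

theorem norm_ev (t : Node) : ‖ev t‖ = 1 := by
  refine le_antisymm (norm_ev_le t) ?_
  have h1 := (coord t).le_opNorm (ev t)
  have h2 := norm_coord_le t
  rw [coord_ev, if_pos rfl] at h1
  simp only [norm_one] at h1
  nlinarith [norm_nonneg (ev t), norm_nonneg (coord t)]

theorem el_eq_sum (a : Atom) : el a = ∑ S ∈ a.F, a.c S • ∑ t ∈ S.nodes, ev t := by
  refine ext_coord fun s => ?_
  simp [map_sum, coord_el, coord_ev, Atom.val]

/-- The values of a functional at the unit vectors. -/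
noncomputable def vals (f : X →L[ℝ] ℝ) (t : Node) : ℝ := f (ev t)

theorem apply_el (f : X →L[ℝ] ℝ) (a : Atom) : f (el a) = a.pair (vals f) := by
  rw [el_eq_sum]
  simp [map_sum, Atom.pair, segSum, vals]

theorem hasSum_el (w : W) : HasSum (fun a => w a • el a) (quo w) := by
  have h := quo.hasSum (lp.hasSum_single (E := fun _ : Atom => ℝ) (by simp) w)
  refine HasSum.congr_fun h fun a => ?_
  change w a • el a = quo (lp.single 1 a (w a))
  rw [el, ← map_smul, ← lp.single_smul]
  simp

theorem opNorm_le_of_atoms (f : X →L[ℝ] ℝ) {C : ℝ} (hC : 0 ≤ C)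
    (h : ∀ a, |f (el a)| ≤ C) : ‖f‖ ≤ C := by
  refine f.opNorm_le_bound hC fun x => ?_
  refine le_of_forall_pos_le_add fun ε hε => ?_
  obtain ⟨w, rfl, hw⟩ := exists_lift x (ε := ε / (C + 1)) (by positivity)
  have h1 : ‖f (quo w)‖ ≤ C * ‖w‖ := by
    rw [← (f.hasSum (hasSum_el w)).tsum_eq]
    refine tsum_of_norm_bounded (g := fun a => C * |w a|)
      (by rw [norm_W]; exact ((summable_norm_W w).hasSum.mul_left C)) fun a => ?_
    rw [map_smul, norm_smul, Real.norm_eq_abs, Real.norm_eq_abs, mul_comm]
    exact mul_le_mul_of_nonneg_right (h a) (abs_nonneg _)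
  have h2 : C * ‖w‖ ≤ C * ‖quo w‖ + C * (ε / (C + 1)) := by
    rw [← mul_add]
    exact mul_le_mul_of_nonneg_left hw.le hC
  have h3 : C * (ε / (C + 1)) ≤ ε := by
    rw [← mul_div_assoc, div_le_iff₀ (by positivity)]
    nlinarith
  linarith

theorem exists_segAtom_pair (F : Finset Seg) (hF : Disj F) (f : Node → ℝ) :
    ∃ a : Atom, a.pair f = Real.sqrt (∑ S ∈ F, segSum f S ^ 2) := by
  set q := ∑ S ∈ F, segSum f S ^ 2 with hq
  have h0 : 0 ≤ q := sum_nonneg fun _ _ => sq_nonneg _
  refine ⟨⟨F, hF, fun S => segSum f S / Real.sqrt q, ?_⟩, ?_⟩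
  · simp only [div_pow]
    rw [← sum_div, Real.sq_sqrt h0]
    exact div_self_le_one _
  · simp only [Atom.pair, div_mul_eq_mul_div, ← pow_two, ← sum_div]
    exact Real.div_sqrt

theorem sum_sq_vals_le (f : X →L[ℝ] ℝ) {F : Finset Seg} (hF : Disj F) :
    ∑ S ∈ F, segSum (vals f) S ^ 2 ≤ ‖f‖ ^ 2 := by
  obtain ⟨a, ha⟩ := exists_segAtom_pair F hF (vals f)
  have h0 : 0 ≤ ∑ S ∈ F, segSum (vals f) S ^ 2 := sum_nonneg fun _ _ => sq_nonneg _
  have h1 : Real.sqrt (∑ S ∈ F, segSum (vals f) S ^ 2) ≤ ‖f‖ := by
    rw [← ha, ← apply_el]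
    exact (le_abs_self _).trans ((f.le_opNorm _).trans
      (mul_le_of_le_one_right (norm_nonneg f) (norm_el_le a)))
  calc _ = Real.sqrt (∑ S ∈ F, segSum (vals f) S ^ 2) ^ 2 := (Real.sq_sqrt h0).symm
    _ ≤ _ := pow_le_pow_left₀ (Real.sqrt_nonneg _) h1 2

theorem bd_vals {f : X →L[ℝ] ℝ} (hf : ‖f‖ ≤ 1) : Bd (vals f) := fun _ hF =>
  (sum_sq_vals_le f hF).trans (pow_le_one₀ (norm_nonneg f) hf)

theorem norm_le_one_of_bd {f : X →L[ℝ] ℝ} (hf : Bd (vals f)) : ‖f‖ ≤ 1 :=
  opNorm_le_of_atoms f zero_le_one fun a => by rw [apply_el]; exact a.abs_pair_le hf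

/-- The functional with prescribed finitely supported values. -/
noncomputable def func (A : Finset Node) (f : Node → ℝ) : X →L[ℝ] ℝ :=
  ∑ t ∈ A, f t • coord t

theorem vals_func (A : Finset Node) (f : Node → ℝ) : vals (func A f) = inside A f := by
  funext s
  simp [vals, func, inside, coord_ev]

theorem func_apply (A : Finset Node) (f : Node → ℝ) (x : X) :
    func A f x = ∑ t ∈ A, f t * coord t x := by
  simp [func]

/-- The truncation of a vector to a finite set. -/
noncomputable def proj (A : Finset Node) : X →L[ℝ] X :=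
  ∑ t ∈ A, (coord t).smulRight (ev t)

theorem proj_apply (A : Finset Node) (x : X) :
    proj A x = ∑ t ∈ A, coord t x • ev t := by
  simp [proj]

theorem coord_proj (A : Finset Node) (x : X) (s : Node) :
    coord s (proj A x) = if s ∈ A then coord s x else 0 := by
  rw [proj_apply, coord_sum_ev]

theorem apply_proj (f : X →L[ℝ] ℝ) (A : Finset Node) (x : X) :
    f (proj A x) = func A (vals f) x := by
  simp [proj_apply, map_sum, func_apply, vals, mul_comm]

theorem norm_func_down_le {f : Node → ℝ} (hf : Bd f) {A : Finset Node} (hA : Down A) :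
    ‖func A f‖ ≤ 1 :=
  norm_le_one_of_bd (by rw [vals_func]; exact hf.inside hA)

theorem norm_proj_le {A : Finset Node} (hA : Down A) (x : X) : ‖proj A x‖ ≤ ‖x‖ := by
  obtain ⟨g, hg, hgx⟩ := exists_dual_vector'' ℝ (proj A x)
  rw [show ‖proj A x‖ = g (proj A x) from hgx.symm, apply_proj]
  refine (le_abs_self _).trans (((func A (vals g)).le_opNorm x).trans ?_)
  exact mul_le_of_le_one_left (norm_nonneg x) (norm_func_down_le (bd_vals hg) hA)

/-- The nodes of an atom. -/
noncomputable def Atom.supp (a : Atom) : Finset Node := a.F.biUnion Seg.nodes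

theorem Atom.val_eq_zero (a : Atom) {t : Node} (h : t ∉ a.supp) : a.val t = 0 := by
  refine sum_eq_zero fun S hS => ?_
  rw [if_neg]
  exact fun ht => h (mem_biUnion.2 ⟨S, hS, ht⟩)

/-- Every vector is approximated by a finite nonnegative combination of atoms of almost minimal
weight. -/
theorem exists_approx (x : X) {ε : ℝ} (hε : 0 < ε) :
    ∃ (s : Finset Atom) (l : Atom → ℝ) (σ : Atom → Atom),
      (∀ a, 0 ≤ l a) ∧ ∑ a ∈ s, l a ≤ ‖x‖ + ε ∧ ‖x - ∑ a ∈ s, l a • el (σ a)‖ ≤ ε := by
  obtain ⟨w, rfl, hw⟩ := exists_lift x hε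
  obtain ⟨s, hs⟩ := ((hasSum_el w).eventually (Metric.ball_mem_nhds _ hε)).exists
  let neg : Atom → Atom := fun a => ⟨a.F, a.disj, fun S => -a.c S, by simpa using a.hc⟩
  have hneg : ∀ a, el (neg a) = -el a := fun a => by
    refine ext_coord fun t => ?_
    simp only [map_neg, coord_el, Atom.val, neg, ← sum_neg_distrib]
    exact sum_congr rfl fun S _ => by split_ifs <;> simp
  refine ⟨s, fun a => |w a|, fun a => if 0 ≤ w a then a else neg a, fun a => abs_nonneg _, ?_, ?_⟩
  · refine le_trans ?_ hw.le
    rw [norm_W]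
    exact (summable_norm_W w).sum_le_tsum s fun a _ => abs_nonneg _
  · have : ∑ a ∈ s, |w a| • el (if 0 ≤ w a then a else neg a) = ∑ a ∈ s, w a • el a := by
      refine sum_congr rfl fun a _ => ?_
      split_ifs with h
      · rw [abs_of_nonneg h]
      · rw [abs_of_neg (not_le.1 h), hneg, neg_smul_neg]
    rw [this, norm_sub_rev]
    exact le_of_lt (by simpa [dist_eq_norm] using hs)

/-- Finitely supported vectors are dense. -/
theorem exists_finite_approx (x : X) {ε : ℝ} (hε : 0 < ε) :
    ∃ A : Finset Node, Down A ∧ ∃ z, ‖x - z‖ ≤ ε ∧ proj A z = z := by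
  obtain ⟨s, l, σ, -, -, h⟩ := exists_approx x hε
  refine ⟨downCl (s.biUnion fun a => (σ a).supp), down_downCl _, _, h, ?_⟩
  refine ext_coord fun t => ?_
  rw [coord_proj]
  split_ifs with ht
  · rfl
  · simp only [map_sum, map_smul, coord_el, smul_eq_mul]
    refine (sum_eq_zero fun a ha => ?_).symm
    rw [(σ a).val_eq_zero fun hc => ht (subset_downCl _ (mem_biUnion.2 ⟨a, ha, hc⟩)), mul_zero]

end Vale.Agent.P069
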