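import Mathlib
import Vale.Agent.P069.Space

/-!
Splitting segments at nodes where two almost optimal families carry opposite signs.
-/

namespace Vale.Agent.P069

open Finset
open scoped Classical

/-- The last node in `A` on the chain below the bottom of a segment. -/
noncomputable def key (A : Finset Node) (S : Seg) : Option Node :=
  if cut A S.bot = 0 then none else some (anc S.bot (cut A S.bot - 1))

theorem key_of_pos {A : Finset Node} {S : Seg} (h : 0 < cut A S.bot) :
    key A S = some (anc S.bot (cut A S.bot - 1)) := if_neg (by omega)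

theorem key_mem {A : Finset Node} (hA : Down A) {S : Seg} {p : Node} (h : key A S = some p) :
    p ∈ A := by
  unfold key at h
  split_ifs at h with hc
  obtain rfl := Option.some.inj h
  have := cut_le A S.bot
  exact (mem_iff_lt_cut hA _ (by omega)).2 (by omega)

/-- Data in the AMUC estimate: a finite down-closed set and a bounded function supported on it. -/
structure Base where
  A : Finset Node
  down : Down A
  f : Node → ℝ
  bd : Bd f
  supp : ∀ t, t ∉ A → f t = 0

/-- The defect of an atom with respect to the base functional. -/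
noncomputable def Base.dft (B : Base) (a : Atom) : ℝ := 1 - a.pair B.f

theorem Base.dft_nonneg (B : Base) (a : Atom) : 0 ≤ B.dft a := by
  have := (abs_le.1 (a.abs_pair_le B.bd)).2
  simp only [Base.dft]
  linarith

theorem Base.sq_defect (B : Base) (a : Atom) :
    1 - ∑ S ∈ a.F, segSum B.f S ^ 2 ≤ 2 * B.dft a := by
  have h1 : a.pair B.f ≤ ∑ S ∈ a.F, (a.c S ^ 2 + segSum B.f S ^ 2) / 2 :=
    sum_le_sum fun S _ => by nlinarith [sq_nonneg (a.c S - segSum B.f S)]
  rw [← sum_div, sum_add_distrib] at h1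
  have := a.hc
  simp only [Base.dft]
  linarith

theorem Base.coeff_dist (B : Base) (a : Atom) :
    ∑ S ∈ a.F, (a.c S - segSum B.f S) ^ 2 ≤ 2 * B.dft a := by
  have h : ∑ S ∈ a.F, (a.c S - segSum B.f S) ^ 2
      = ∑ S ∈ a.F, a.c S ^ 2 + ∑ S ∈ a.F, segSum B.f S ^ 2 - 2 * a.pair B.f := by
    rw [Atom.pair, mul_sum, ← sum_add_distrib, ← sum_sub_distrib]
    exact sum_congr rfl fun S _ => by ring
  have := a.hc
  have := B.bd a.F a.disj
  simp only [Base.dft]
  linarith

theorem Base.segSum_of_le (B : Base) {S : Seg} (h : S.lo ≤ cut B.A S.bot) :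
    segSum B.f S = chainSum B.f S.bot (cut B.A S.bot) - chainSum B.f S.bot S.lo := by
  have hc := cut_le B.A S.bot
  rw [segSum_eq_chainSum]
  congr 1
  rw [chainSum, chainSum]
  symm
  apply sum_subset
  · intro k hk
    simp only [mem_range] at hk ⊢
    omega
  · intro k hk hk'
    simp only [mem_range] at hk hk'
    exact B.supp _ fun hm => hk' ((mem_iff_lt_cut B.down _ (by omega)).1 hm)

theorem Base.lo_lt_cut (B : Base) {S : Seg} (h : segSum B.f S ≠ 0) : S.lo < cut B.A S.bot := by
  by_contra hc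
  apply h
  rw [segSum_eq]
  refine sum_eq_zero fun k hk => B.supp _ fun hm => ?_
  simp only [mem_Icc] at hk
  have := (mem_iff_lt_cut B.down _ hk.2).1 hm
  omega

/-- The part of a segment strictly above level `j`. -/
noncomputable def upper (S : Seg) (j : ℕ) : Seg :=
  if h : S.lo ≤ lev (anc S.bot (j - 1)) then ⟨anc S.bot (j - 1), S.lo, h⟩ else S

/-- The part of a segment from level `j` on. -/
noncomputable def lower (S : Seg) (j : ℕ) : Seg :=
  if h : j ≤ lev S.bot then ⟨S.bot, j, h⟩ else S

theorem upper_nodes {S : Seg} {j : ℕ} (h1 : S.lo < j) (h2 : j ≤ lev S.bot) {t : Node}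
    (ht : t ∈ (upper S j).nodes) : t ∈ S.nodes ∧ lev t < j := by
  have h : S.lo ≤ lev (anc S.bot (j - 1)) := by rw [lev_anc]; omega
  rw [upper, dif_pos h] at ht
  obtain ⟨k, hk, rfl⟩ := mem_image.1 ht
  simp only [mem_Icc, lev_anc] at hk
  rw [anc_anc_of_le _ (by omega), lev_anc]
  exact ⟨S.anc_mem_nodes hk.1 (by omega), by omega⟩

theorem lower_nodes {S : Seg} {j : ℕ} (h1 : S.lo < j) (h2 : j ≤ lev S.bot) {t : Node}
    (ht : t ∈ (lower S j).nodes) : t ∈ S.nodes ∧ j ≤ lev t := by
  rw [lower, dif_pos h2] at ht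
  obtain ⟨k, hk, rfl⟩ := mem_image.1 ht
  simp only [mem_Icc] at hk
  rw [lev_anc]
  dsimp only at hk ⊢
  exact ⟨S.anc_mem_nodes (by omega) hk.2, by omega⟩

theorem segSum_upper {S : Seg} {j : ℕ} (h1 : S.lo < j) (h2 : j ≤ lev S.bot) (f : Node → ℝ) :
    segSum f (upper S j) = chainSum f S.bot j - chainSum f S.bot S.lo := by
  have h : S.lo ≤ lev (anc S.bot (j - 1)) := by rw [lev_anc]; omega
  rw [upper, dif_pos h, segSum_eq_chainSum]
  simp only [lev_anc]
  rw [min_eq_left (by omega), show j - 1 + 1 = j by omega, chainSum_anc f _ (by omega),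
    chainSum_anc f _ (by omega)]

theorem segSum_lower {S : Seg} {j : ℕ} (h2 : j ≤ lev S.bot) (f : Node → ℝ) :
    segSum f (lower S j) = chainSum f S.bot (lev S.bot + 1) - chainSum f S.bot j := by
  rw [lower, dif_pos h2, segSum_eq_chainSum]

/-- Splitting gains twice the product of the pieces, so that product is bounded by the defect. -/
theorem Base.split_gain (B : Base) (a : Atom) (M : Finset Seg) (hM : M ⊆ a.F) (j : Seg → ℕ)
    (hj : ∀ S ∈ M, S.lo < j S ∧ j S ≤ lev S.bot) :
    ∑ S ∈ M, -(segSum B.f (upper S (j S)) * segSum B.f (lower S (j S))) ≤ B.dft a := by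
  let g : Seg ⊕ Seg → Seg :=
    Sum.elim (fun S => if S ∈ M then upper S (j S) else S) (fun S => lower S (j S))
  have hsub : ∀ S ∈ a.F, ∀ t ∈ (g (Sum.inl S)).nodes, t ∈ S.nodes ∧ (S ∈ M → lev t < j S) := by
    intro S _ t ht
    by_cases h : S ∈ M
    · simp only [g, Sum.elim_inl, if_pos h] at ht
      obtain ⟨h1, h2⟩ := upper_nodes (hj S h).1 (hj S h).2 ht
      exact ⟨h1, fun _ => h2⟩
    · simp only [g, Sum.elim_inl, if_neg h] at ht
      exact ⟨ht, fun hc => absurd hc h⟩
  have hdis : ((a.F.disjSum M : Finset (Seg ⊕ Seg)) : Set (Seg ⊕ Seg)).PairwiseDisjoint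
      fun i => (g i).nodes := by
    intro x hx y hy hne
    simp only [Function.onFun, disjoint_left]
    intro t htx hty
    rcases x with S | S <;> rcases y with S' | S' <;>
      simp only [mem_coe, inl_mem_disjSum, inr_mem_disjSum] at hx hy
    · exact hne (congrArg Sum.inl (a.disj.eq_of_mem hx hy (hsub S hx t htx).1 (hsub S' hy t hty).1))
    · obtain ⟨h1, h2⟩ := hsub S hx t htx
      obtain ⟨h3, h4⟩ := lower_nodes (hj S' hy).1 (hj S' hy).2 hty
      obtain rfl := a.disj.eq_of_mem hx (hM hy) h1 h3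
      have := h2 hy
      omega
    · obtain ⟨h1, h2⟩ := hsub S' hy t hty
      obtain ⟨h3, h4⟩ := lower_nodes (hj S hx).1 (hj S hx).2 htx
      obtain rfl := a.disj.eq_of_mem (hM hx) hy h3 h1
      have := h2 hx
      omega
    · exact hne (congrArg Sum.inr (a.disj.eq_of_mem (hM hx) (hM hy)
        (lower_nodes (hj S hx).1 (hj S hx).2 htx).1 (lower_nodes (hj S' hy).1 (hj S' hy).2 hty).1))
  have h := B.bd.indexed _ g hdis
  rw [sum_disjSum] at h
  have hF : ∑ S ∈ a.F, segSum B.f (g (Sum.inl S)) ^ 2 + ∑ S ∈ M, segSum B.f (g (Sum.inr S)) ^ 2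
      = ∑ S ∈ a.F, segSum B.f S ^ 2
        + 2 * ∑ S ∈ M, -(segSum B.f (upper S (j S)) * segSum B.f (lower S (j S))) := by
    rw [← sum_filter_add_sum_filter_not a.F (· ∈ M) (fun S => segSum B.f (g (Sum.inl S)) ^ 2),
      ← sum_filter_add_sum_filter_not a.F (· ∈ M) (fun S => segSum B.f S ^ 2)]
    have hfilt : a.F.filter (· ∈ M) = M := by
      ext S
      simp only [mem_filter]
      exact ⟨And.right, fun h => ⟨hM h, h⟩⟩
    rw [hfilt]
    have e1 : ∑ S ∈ a.F with S ∉ M, segSum B.f (g (Sum.inl S)) ^ 2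
        = ∑ S ∈ a.F with S ∉ M, segSum B.f S ^ 2 := sum_congr rfl fun S hS => by
      simp [g, (mem_filter.1 hS).2]
    have e2 : ∑ S ∈ M, segSum B.f (g (Sum.inl S)) ^ 2 + ∑ S ∈ M, segSum B.f (g (Sum.inr S)) ^ 2
        = ∑ S ∈ M, segSum B.f S ^ 2
          + 2 * ∑ S ∈ M, -(segSum B.f (upper S (j S)) * segSum B.f (lower S (j S))) := by
      rw [mul_sum, ← sum_add_distrib, ← sum_add_distrib]
      refine sum_congr rfl fun S hS => ?_
      simp only [g, Sum.elim_inl, Sum.elim_inr, if_pos hS]
      rw [segSum_upper (hj S hS).1 (hj S hS).2, segSum_lower (hj S hS).2, segSum_eq_chainSum]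
      ring
    linarith
  have := B.sq_defect a
  linarith

/-- The positive part of the signed segment sum. -/
noncomputable def Base.pos (B : Base) (σ : ℝ) (S : Seg) : ℝ := max (σ * segSum B.f S) 0

theorem Base.pos_nonneg (B : Base) (σ : ℝ) (S : Seg) : 0 ≤ B.pos σ S := le_max_right _ _

theorem Base.pos_ne_zero {B : Base} {σ : ℝ} {S : Seg} (h : B.pos σ S ≠ 0) :
    0 < σ * segSum B.f S ∧ B.pos σ S = σ * segSum B.f S := by
  unfold Base.pos at h ⊢
  rcases le_or_gt (σ * segSum B.f S) 0 with h' | h'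
  · exact absurd (max_eq_right h') h
  · exact ⟨h', max_eq_left h'.le⟩

/-- The interaction of two segments with the same key, the first one longer. -/
noncomputable def Base.inter (B : Base) (σ : ℝ) (S S' : Seg) : ℝ :=
  if key B.A S = key B.A S' ∧ S.lo < S'.lo then B.pos σ S * B.pos (-σ) S' else 0

theorem Base.inter_facts {B : Base} {σ : ℝ} {S S' : Seg} (h : B.inter σ S S' ≠ 0) :
    key B.A S = key B.A S' ∧ S.lo < S'.lo ∧ S'.lo < cut B.A S'.bot ∧
      cut B.A S.bot = cut B.A S'.bot ∧ S'.lo ≤ lev S.bot ∧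
      segSum B.f (lower S S'.lo) = segSum B.f S' ∧
      B.inter σ S S' = B.pos σ S * B.pos (-σ) S' := by
  unfold Base.inter at h ⊢
  split_ifs at h with hc
  · obtain ⟨hkey, hlo⟩ := hc
    have hu : segSum B.f S ≠ 0 := fun h0 => h (by simp [Base.pos, h0])
    have hv : segSum B.f S' ≠ 0 := fun h0 => h (by simp [Base.pos, h0])
    have l1 := B.lo_lt_cut hu
    have l2 := B.lo_lt_cut hv
    have c1 := cut_le B.A S.bot
    have c2 := cut_le B.A S'.bot
    have hk := hkey
    rw [key_of_pos (by omega), key_of_pos (by omega), Option.some.injEq] at hk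
    have hlev := congrArg lev hk
    simp only [lev_anc] at hlev
    have hJ : cut B.A S.bot = cut B.A S'.bot := by omega
    have hle : S'.lo ≤ lev S.bot := by omega
    refine ⟨hkey, hlo, l2, hJ, hle, ?_, by rw [if_pos ⟨hkey, hlo⟩]⟩
    have hlow : (lower S S'.lo).bot = S.bot ∧ (lower S S'.lo).lo = S'.lo := by
      simp [lower, hle]
    rw [B.segSum_of_le (S := lower S S'.lo) (by rw [hlow.1, hlow.2]; omega),
      B.segSum_of_le l2.le, hlow.1, hlow.2,
      ← chainSum_anc B.f S.bot (j := cut B.A S.bot - 1) (k := cut B.A S.bot) (by omega),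
      ← chainSum_anc B.f S'.bot (j := cut B.A S'.bot - 1) (k := cut B.A S'.bot) (by omega),
      ← chainSum_anc B.f S.bot (j := cut B.A S.bot - 1) (k := S'.lo) (by omega),
      ← chainSum_anc B.f S'.bot (j := cut B.A S'.bot - 1) (k := S'.lo) (by omega),
      hk, hJ]
  · exact absurd rfl h

/-- Opposite signs at common keys cost at least their products. -/
theorem Base.gain (B : Base) (a b : Atom) {σ : ℝ} (hσ : σ = 1 ∨ σ = -1) :
    ∑ S ∈ a.F, ∑ S' ∈ b.F, B.inter σ S S' ≤ B.dft a := by
  let M := a.F.filter fun S => ∃ S' ∈ b.F, B.inter σ S S' ≠ 0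
  have hM : ∀ S ∈ M, ∃ S' ∈ b.F, B.inter σ S S' ≠ 0 := fun S hS => (mem_filter.1 hS).2
  choose! p hpF hp using hM
  have huniq : ∀ S ∈ M, ∑ S' ∈ b.F, B.inter σ S S' = B.inter σ S (p S) := by
    intro S hS
    refine sum_eq_single_of_mem _ (hpF S hS) fun S' hS' hne => ?_
    by_contra h
    obtain ⟨k1, -, l1, -, -, -, -⟩ := Base.inter_facts h
    obtain ⟨k2, -, l2, -, -, -, -⟩ := Base.inter_facts (hp S hS)
    rw [k1, key_of_pos (by omega), key_of_pos (by omega), Option.some.injEq] at k2
    have c1 := cut_le B.A S'.bot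
    have c2 := cut_le B.A (p S).bot
    refine hne (b.disj.eq_of_mem hS' (hpF S hS) (S'.anc_mem_nodes (j := cut B.A S'.bot - 1)
      (by omega) (by omega)) ?_)
    rw [k2]
    exact (p S).anc_mem_nodes (by omega) (by omega)
  rw [← sum_filter_of_ne (p := fun S => ∃ S' ∈ b.F, B.inter σ S S' ≠ 0)
    (fun S _ h => exists_ne_zero_of_sum_ne_zero h)]
  refine le_trans (sum_le_sum fun S hS => ?_)
    (B.split_gain a M (filter_subset _ _) (fun S => (p S).lo) fun S hS => ?_)
  · rw [huniq S hS]
    obtain ⟨-, h1, -, -, h2, h3, h4⟩ := Base.inter_facts (hp S hS)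
    have hne := hp S hS
    rw [h4] at hne ⊢
    obtain ⟨u1, u2⟩ := Base.pos_ne_zero (left_ne_zero_of_mul hne)
    obtain ⟨v1, v2⟩ := Base.pos_ne_zero (right_ne_zero_of_mul hne)
    rw [u2, v2, ← h3]
    rw [← h3] at v1
    have e : segSum B.f S = segSum B.f (upper S (p S).lo) + segSum B.f (lower S (p S).lo) := by
      rw [segSum_upper h1 h2, segSum_lower h2, segSum_eq_chainSum]
      ring
    rw [e] at u1 ⊢
    have hs : σ * σ = 1 := by rcases hσ with rfl | rfl <;> norm_num
    have h5 : σ * (segSum B.f (upper S (p S).lo) + segSum B.f (lower S (p S).lo))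
        * (-σ * segSum B.f (lower S (p S).lo))
        = -(segSum B.f (upper S (p S).lo) * segSum B.f (lower S (p S).lo))
          - segSum B.f (lower S (p S).lo) ^ 2 := by
      linear_combination (-(segSum B.f (upper S (p S).lo) + segSum B.f (lower S (p S).lo))
        * segSum B.f (lower S (p S).lo)) * hs
    rw [h5]
    linarith [sq_nonneg (segSum B.f (lower S (p S).lo))]
  · obtain ⟨-, h1, -, -, h2, -, -⟩ := Base.inter_facts (hp S hS)
    exact ⟨h1, h2⟩

/-- The total opposite-sign interaction of two atoms. -/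
theorem Base.cross (B : Base) (a b : Atom) :
    ∑ S ∈ a.F, ∑ S' ∈ b.F,
        (if key B.A S = key B.A S' then B.pos 1 S * B.pos (-1) S' else 0)
      ≤ B.dft a + B.dft b := by
  have h1 := B.gain a b (σ := 1) (Or.inl rfl)
  have h2 := B.gain b a (σ := -1) (Or.inr rfl)
  rw [sum_comm] at h2
  refine le_trans ?_ (add_le_add h1 h2)
  rw [← sum_add_distrib]
  refine sum_le_sum fun S _ => ?_
  rw [← sum_add_distrib]
  refine sum_le_sum fun S' _ => le_of_eq ?_
  unfold Base.inter
  rw [neg_neg]
  by_cases hk : key B.A S = key B.A S'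
  · rcases lt_trichotomy S.lo S'.lo with h | h | h
    · simp [hk, h, not_lt.2 h.le]
    · simp only [hk, if_true, true_and, h, lt_irrefl, if_false, add_zero]
      by_contra hne
      obtain ⟨u1, -⟩ := Base.pos_ne_zero (left_ne_zero_of_mul hne)
      obtain ⟨v1, -⟩ := Base.pos_ne_zero (right_ne_zero_of_mul hne)
      have l1 := B.lo_lt_cut (S := S) fun h0 => by simp [h0] at u1
      have l2 := B.lo_lt_cut (S := S') fun h0 => by simp [h0] at v1
      have c1 := cut_le B.A S.bot
      have c2 := cut_le B.A S'.bot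
      have hk' := hk
      rw [key_of_pos (by omega), key_of_pos (by omega), Option.some.injEq] at hk'
      have hlev := congrArg lev hk'
      simp only [lev_anc] at hlev
      have hJ : cut B.A S.bot = cut B.A S'.bot := by omega
      have e : segSum B.f S = segSum B.f S' := by
        rw [B.segSum_of_le l1.le, B.segSum_of_le l2.le,
          ← chainSum_anc B.f S.bot (j := cut B.A S.bot - 1) (k := cut B.A S.bot) (by omega),
          ← chainSum_anc B.f S'.bot (j := cut B.A S'.bot - 1) (k := cut B.A S'.bot) (by omega),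
          ← chainSum_anc B.f S.bot (j := cut B.A S.bot - 1) (k := S.lo) (by omega),
          ← chainSum_anc B.f S'.bot (j := cut B.A S'.bot - 1) (k := S'.lo) (by omega),
          hk', hJ, h]
      rw [e] at u1
      linarith
    · simp [hk, h, not_lt.2 h.le, mul_comm]
  · simp [hk, Ne.symm hk]

end Vale.Agent.P069
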