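import Mathlib
import Vale.Agent.P069.Split

/-!
The norm of the space has the midpoint property.
-/

namespace Vale.Agent.P069

open Finset
open scoped Classical

/-- The part of a function on nodes whose key satisfies `P`. -/
noncomputable def sel (A : Finset Node) (P : Option Node → Prop) (f : Node → ℝ) : Node → ℝ :=
  fun t => if P (key A (Seg.point t)) then f t else 0

theorem key_point {A : Finset Node} (hA : Down A) {S : Seg} {t : Node} (ht : t ∈ S.nodes)
    (hn : t ∉ A) : key A (Seg.point t) = key A S := by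
  obtain ⟨k, hk, rfl⟩ := mem_image.1 ht
  simp only [mem_Icc] at hk
  have hc := cut_anc hA S.bot hk.2 hn
  have hc2 : cut A S.bot ≤ k := by
    by_contra hc2
    exact hn ((mem_iff_lt_cut hA _ hk.2).2 (not_le.1 hc2))
  simp only [key, Seg.point, hc]
  split_ifs
  · rfl
  · rw [anc_anc_of_le _ (by omega)]

theorem segSum_sel {A : Finset Node} (hA : Down A) (P : Option Node → Prop) {f : Node → ℝ}
    (hf : ∀ t ∈ A, f t = 0) (S : Seg) :
    segSum (sel A P f) S = if P (key A S) then segSum f S else 0 := by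
  have h : ∀ t ∈ S.nodes, sel A P f t = if P (key A S) then f t else 0 := by
    intro t ht
    by_cases hn : t ∈ A
    · simp [sel, hf t hn]
    · simp [sel, key_point hA ht hn]
  rw [segSum_congr h]
  split_ifs <;> simp [segSum]

theorem Bd.sel {A : Finset Node} (hA : Down A) (P : Option Node → Prop) {f : Node → ℝ}
    (hb : Bd f) (hf : ∀ t ∈ A, f t = 0) : Bd (sel A P f) :=
  hb.sub fun S => by
    rw [segSum_sel hA P hf]
    split_ifs
    · exact Or.inr ⟨S, subset_rfl, rfl⟩
    · exact Or.inl rfl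

/-- The function whose chain sums are the positive parts of the chain sums of `f`. -/
noncomputable def clip (f : Node → ℝ) (t : Node) : ℝ :=
  max (chainSum f t (lev t + 1)) 0 - max (chainSum f t (lev t)) 0

theorem clip_eq_zero {f : Node → ℝ} {t : Node} (h : f t = 0) : clip f t = 0 := by
  have : chainSum f t (lev t + 1) = chainSum f t (lev t) := by
    simp [chainSum, sum_range_succ, h]
  simp [clip, this]

theorem chainSum_clip (f : Node → ℝ) (b : Node) (j : ℕ) (hj : j ≤ lev b + 1) :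
    chainSum (clip f) b j = max (chainSum f b j) 0 := by
  induction j with
  | zero => simp [chainSum]
  | succ j ih =>
    have hs : chainSum (clip f) b (j + 1) = chainSum (clip f) b j + clip f (anc b j) :=
      sum_range_succ _ _
    rw [hs, ih (by omega), clip, lev_anc, min_eq_left (by omega),
      chainSum_anc f b (le_refl _), chainSum_anc f b (Nat.le_succ _)]
    ring

theorem segSum_clip (f : Node → ℝ) (S : Seg) :
    segSum (clip f) S
      = max (chainSum f S.bot (lev S.bot + 1)) 0 - max (chainSum f S.bot S.lo) 0 := by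
  rw [segSum_eq_chainSum, chainSum_clip _ _ _ le_rfl,
    chainSum_clip _ _ _ (by have := S.hlo; omega)]

theorem Bd.clip {f : Node → ℝ} (hf : Bd f) : Bd (clip f) := by
  intro F hF
  refine le_trans (sum_le_sum fun S _ => ?_) (hf F hF)
  rw [segSum_clip, segSum_eq_chainSum, sq_le_sq]
  exact abs_max_sub_max_le_abs _ _ _

theorem Bd.mul_sign {f : Node → ℝ} (hf : Bd f) {σ : ℝ} (hσ : σ = 1 ∨ σ = -1) :
    Bd fun t => σ * f t := by
  intro F hF
  refine le_trans (le_of_eq (sum_congr rfl fun S _ => ?_)) (hf F hF)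
  simp only [segSum, ← mul_sum]
  rcases hσ with rfl | rfl <;> ring

/-- The part of a segment sum carried by the part of the segment outside `A`. -/
theorem chainSum_lo_eq_zero {A : Finset Node} (hA : Down A) {f : Node → ℝ}
    (hf : ∀ t ∈ A, f t = 0) {S : Seg} (h : S.lo ≤ cut A S.bot) :
    chainSum f S.bot S.lo = 0 := by
  refine sum_eq_zero fun k hk => hf _ ?_
  simp only [mem_range] at hk
  have := S.hlo
  exact (mem_iff_lt_cut hA _ (by omega)).2 (by omega)

/-- The bilinear crossing form of an atom. -/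
noncomputable def Base.form (B : Base) (a : Atom) (g : Node → ℝ) : ℝ :=
  ∑ S ∈ a.F, segSum B.f S * segSum g S

theorem Base.pair_sub_form (B : Base) (a : Atom) {g : Node → ℝ} (hg : Bd g) :
    |a.pair g - B.form a g| ≤ Real.sqrt (2 * B.dft a) := by
  apply Real.abs_le_sqrt
  have h : a.pair g - B.form a g = ∑ S ∈ a.F, (a.c S - segSum B.f S) * segSum g S := by
    simp [Atom.pair, Base.form, sub_mul]
  rw [h]
  refine (sum_mul_sq_le_sq_mul_sq _ _ _).trans ?_
  calc _ ≤ (2 * B.dft a) * 1 :=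
        mul_le_mul (B.coeff_dist a) (hg a.F a.disj) (sum_nonneg fun _ _ => sq_nonneg _)
          (by linarith [B.dft_nonneg a])
    _ = _ := mul_one _

/-- The crossing mass with sign `σ` at a node. -/
noncomputable def Base.mass {ι : Type} (B : Base) (s : Finset ι) (L : ι → ℝ) (at_ : ι → Atom)
    (σ : ℝ) (p : Node) : ℝ :=
  ∑ i ∈ s, L i * ∑ S ∈ (at_ i).F, if key B.A S = some p then B.pos σ S else 0

theorem Base.mass_nonneg {ι : Type} (B : Base) {s : Finset ι} {L : ι → ℝ} (hL : ∀ i, 0 ≤ L i)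
    (at_ : ι → Atom) (σ : ℝ) (p : Node) : 0 ≤ B.mass s L at_ σ p :=
  sum_nonneg fun i _ => mul_nonneg (hL i) (sum_nonneg fun S _ => by
    split_ifs
    · exact B.pos_nonneg σ S
    · rfl)

/-- Positive and negative crossing mass cannot both be large. -/
theorem Base.mass_prod_le {ι : Type} (B : Base) {s : Finset ι} {L : ι → ℝ} (hL : ∀ i, 0 ≤ L i)
    (at_ : ι → Atom) :
    ∑ p ∈ B.A, B.mass s L at_ 1 p * B.mass s L at_ (-1) p
      ≤ 2 * (∑ i ∈ s, L i) * ∑ i ∈ s, L i * B.dft (at_ i) := by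
  have key_eq : ∀ (S S' : Seg),
      ∑ p ∈ B.A, (if key B.A S = some p then B.pos 1 S else 0)
          * (if key B.A S' = some p then B.pos (-1) S' else 0)
        ≤ if key B.A S = key B.A S' then B.pos 1 S * B.pos (-1) S' else 0 := by
    intro S S'
    rcases hS : key B.A S with _ | q
    · simp only [reduceCtorEq, if_false, zero_mul, sum_const_zero]
      split_ifs
      · exact mul_nonneg (B.pos_nonneg _ _) (B.pos_nonneg _ _)
      · rfl
    · rw [sum_eq_single_of_mem q (key_mem B.down hS) fun p _ hp => by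
        simp [Ne.symm hp]]
      simp only [if_true, eq_comm (a := some q), mul_ite, mul_zero, le_refl]
  calc ∑ p ∈ B.A, B.mass s L at_ 1 p * B.mass s L at_ (-1) p
      = ∑ i ∈ s, ∑ k ∈ s, L i * L k * ∑ S ∈ (at_ i).F, ∑ S' ∈ (at_ k).F, ∑ p ∈ B.A,
          (if key B.A S = some p then B.pos 1 S else 0)
            * (if key B.A S' = some p then B.pos (-1) S' else 0) := by
        have e : ∀ p ∈ B.A, B.mass s L at_ 1 p * B.mass s L at_ (-1) p
            = ∑ i ∈ s, ∑ k ∈ s, L i * L k * ∑ S ∈ (at_ i).F, ∑ S' ∈ (at_ k).F,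
              (if key B.A S = some p then B.pos 1 S else 0)
                * (if key B.A S' = some p then B.pos (-1) S' else 0) := by
          intro p _
          rw [Base.mass, Base.mass, sum_mul_sum]
          exact sum_congr rfl fun i _ => sum_congr rfl fun k _ => by
            rw [mul_mul_mul_comm, sum_mul_sum]
        rw [sum_congr rfl e, sum_comm]
        refine sum_congr rfl fun i _ => ?_
        rw [sum_comm]
        refine sum_congr rfl fun k _ => ?_
        rw [← mul_sum, sum_comm]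
        exact congrArg (L i * L k * ·) (sum_congr rfl fun S _ => sum_comm)
    _ ≤ ∑ i ∈ s, ∑ k ∈ s, L i * L k * (B.dft (at_ i) + B.dft (at_ k)) := by
        refine sum_le_sum fun i _ => sum_le_sum fun k _ => ?_
        refine mul_le_mul_of_nonneg_left ?_ (mul_nonneg (hL i) (hL k))
        exact (sum_le_sum fun S _ => sum_le_sum fun S' _ => key_eq S S').trans (B.cross _ _)
    _ = _ := by
        simp only [mul_add, sum_add_distrib]
        have e1 : ∑ i ∈ s, ∑ k ∈ s, L i * L k * B.dft (at_ i)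
            = (∑ i ∈ s, L i) * ∑ i ∈ s, L i * B.dft (at_ i) := by
          rw [mul_comm, sum_mul_sum]
          exact sum_congr rfl fun i _ => sum_congr rfl fun k _ => by ring
        have e2 : ∑ i ∈ s, ∑ k ∈ s, L i * L k * B.dft (at_ k)
            = (∑ i ∈ s, L i) * ∑ i ∈ s, L i * B.dft (at_ i) := by
          rw [sum_mul_sum]
          exact sum_congr rfl fun i _ => sum_congr rfl fun k _ => by ring
        linarith

/-- Crossing terms of sign `σ` at keys in `T` are bounded by the mass at those keys. -/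
theorem Base.mass_test {ι : Type} (B : Base) {s : Finset ι} {L : ι → ℝ} (hL : ∀ i, 0 ≤ L i)
    (at_ : ι → Atom) (σ : ℝ) (P : Option Node → Prop) {g : Node → ℝ} (hg : Bd g)
    (hg0 : ∀ t ∈ B.A, g t = 0) :
    ∑ i ∈ s, L i * ∑ S ∈ (at_ i).F,
        (if P (key B.A S) then B.pos σ S * |segSum g S| else 0)
      ≤ Real.sqrt (∑ p ∈ B.A.filter (fun p => P (some p)), B.mass s L at_ σ p ^ 2) := by
  let T := B.A.filter fun p => P (some p)
  let U := s.biUnion fun i => (at_ i).F
  let C : Node → Finset Seg := fun p => U.filter fun S => key B.A S = some p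
  have hmax : ∀ p, ∃ x : ℝ, 0 ≤ x ∧ (∀ S ∈ C p, |segSum g S| ≤ x) ∧
      (x = 0 ∨ ∃ S ∈ C p, |segSum g S| = x) := by
    intro p
    rcases (C p).eq_empty_or_nonempty with h | h
    · exact ⟨0, le_rfl, by simp [h], Or.inl rfl⟩
    · obtain ⟨S, hS, hS'⟩ := exists_max_image (C p) (fun S => |segSum g S|) h
      exact ⟨|segSum g S|, abs_nonneg _, hS', Or.inr ⟨S, hS, rfl⟩⟩
  choose x hx0 hxle hxeq using hmax
  have hx2 : ∑ p ∈ T, x p ^ 2 ≤ 1 := by
    rw [← sum_filter_of_ne (p := fun p => x p ≠ 0) (fun p _ h h0 => h (by simp [h0]))]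
    have hex : ∀ p ∈ T.filter (fun p => x p ≠ 0), ∃ S : Seg,
        (∀ t ∈ S.nodes, t ∉ B.A ∧ key B.A (Seg.point t) = some p) ∧ segSum g S ^ 2 = x p ^ 2 := by
      intro p hp
      obtain ⟨S, hS, hSx⟩ := (hxeq p).resolve_left (mem_filter.1 hp).2
      have hk : key B.A S = some p := (mem_filter.1 hS).2
      have hle : max S.lo (cut B.A S.bot) ≤ lev S.bot := by
        by_contra hc
        apply (mem_filter.1 hp).2
        rw [← hSx, abs_eq_zero, segSum_eq]
        refine sum_eq_zero fun k hk => hg0 _ ?_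
        simp only [mem_Icc] at hk
        exact (mem_iff_lt_cut B.down _ hk.2).2 (by omega)
      refine ⟨⟨S.bot, max S.lo (cut B.A S.bot), hle⟩, ?_, ?_⟩
      · intro t ht
        obtain ⟨k, hk', rfl⟩ := mem_image.1 ht
        simp only [mem_Icc] at hk'
        have hn : anc S.bot k ∉ B.A := fun hm => by
          have := (mem_iff_lt_cut B.down _ hk'.2).1 hm
          omega
        exact ⟨hn, (key_point B.down (S.anc_mem_nodes (by omega) hk'.2) hn).trans hk⟩
      · rw [← hSx, sq_abs]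
        congr 1
        rw [segSum_eq, segSum_eq]
        apply sum_subset
        · intro k hk
          simp only [mem_Icc] at hk ⊢
          omega
        · intro k hk hk'
          simp only [mem_Icc] at hk hk'
          exact hg0 _ ((mem_iff_lt_cut B.down _ hk.2).2 (by omega))
    have : Nonempty Seg := ⟨Seg.point ⟨(0, []), le_rfl⟩⟩
    choose! R hR hR2 using hex
    rw [← sum_congr rfl hR2]
    refine hg.indexed _ R ?_
    intro p hp q hq hne
    simp only [Function.onFun, disjoint_left]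
    intro t htp htq
    have h1 := (hR p hp t htp).2
    rw [(hR q hq t htq).2, Option.some.injEq] at h1
    exact hne h1.symm
  have hstep : ∑ i ∈ s, L i * ∑ S ∈ (at_ i).F,
      (if P (key B.A S) then B.pos σ S * |segSum g S| else 0)
      ≤ ∑ p ∈ T, B.mass s L at_ σ p * x p := by
    simp only [Base.mass, sum_mul]
    rw [sum_comm]
    refine sum_le_sum fun i hi => ?_
    simp only [mul_assoc, ← mul_sum]
    refine mul_le_mul_of_nonneg_left ?_ (hL i)
    simp only [sum_mul]
    rw [sum_comm]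
    refine sum_le_sum fun S hS => ?_
    rcases hk : key B.A S with _ | q
    · have : B.pos σ S = 0 := by
        by_contra h0
        obtain ⟨h1, -⟩ := Base.pos_ne_zero h0
        have := B.lo_lt_cut (S := S) fun h0 => by simp [h0] at h1
        rw [key_of_pos (by omega)] at hk
        exact absurd hk (by simp)
      simp [this]
    · by_cases hP : P (some q)
      · rw [if_pos hP, sum_eq_single_of_mem q (mem_filter.2 ⟨key_mem B.down hk, hP⟩)
          fun p _ hp => by simp [Ne.symm hp], if_pos rfl]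
        refine mul_le_mul_of_nonneg_left (hxle q S ?_) (B.pos_nonneg σ S)
        exact mem_filter.2 ⟨mem_biUnion.2 ⟨i, hi, hS⟩, hk⟩
      · rw [if_neg hP]
        refine sum_nonneg fun p _ => mul_nonneg ?_ (hx0 p)
        split_ifs
        · exact B.pos_nonneg σ S
        · rfl
  refine hstep.trans ((Real.sum_mul_le_sqrt_mul_sqrt _ _ _).trans ?_)
  exact mul_le_of_le_one_right (Real.sqrt_nonneg _) (Real.sqrt_le_one.2 hx2)

theorem Base.sum_pair_sub_form {ι : Type} (B : Base) (u : Finset ι) {L : ι → ℝ}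
    (hL : ∀ i, 0 ≤ L i) (at_ : ι → Atom) {g : Node → ℝ} (hg : Bd g) :
    |∑ i ∈ u, L i * (at_ i).pair g - ∑ i ∈ u, L i * B.form (at_ i) g|
      ≤ Real.sqrt (2 * (∑ i ∈ u, L i) * ∑ i ∈ u, L i * B.dft (at_ i)) := by
  rw [← sum_sub_distrib]
  refine (abs_sum_le_sum_abs _ _).trans ?_
  have h1 : ∑ i ∈ u, |L i * (at_ i).pair g - L i * B.form (at_ i) g|
      ≤ ∑ i ∈ u, Real.sqrt (L i) * Real.sqrt (2 * (L i * B.dft (at_ i))) := by
    refine sum_le_sum fun i _ => ?_
    rw [← mul_sub, abs_mul, abs_of_nonneg (hL i)]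
    refine (mul_le_mul_of_nonneg_left (B.pair_sub_form (at_ i) hg) (hL i)).trans (le_of_eq ?_)
    rw [show 2 * (L i * B.dft (at_ i)) = L i * (2 * B.dft (at_ i)) by ring,
      Real.sqrt_mul (hL i), ← mul_assoc, Real.mul_self_sqrt (hL i)]
  refine h1.trans (Real.sum_sqrt_mul_sqrt_le _ hL
    (fun i => by have := B.dft_nonneg (at_ i); have := hL i; positivity) |>.trans (le_of_eq ?_))
  rw [← mul_sum, ← Real.sqrt_mul (sum_nonneg fun i _ => hL i)]
  congr 1
  ring

/-- One signed part of the crossing pairing is small. -/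
theorem Base.half_bound {ι : Type} (B : Base) {s s₁ : Finset ι} (hsub : s₁ ⊆ s) {L : ι → ℝ}
    (hL : ∀ i, 0 ≤ L i) (at_ : ι → Atom) {σ : ℝ} (hσ : σ = 1 ∨ σ = -1)
    (P : Option Node → Prop)
    (hP : ∀ p ∈ B.A, P (some p) → B.mass s L at_ (-σ) p ≤ B.mass s L at_ σ p)
    {g : Node → ℝ} (hg : Bd g) (hg0 : ∀ t ∈ B.A, g t = 0) {M : ℝ}
    (hM : ∀ h : Node → ℝ, Bd h → (∀ t, g t = 0 → h t = 0) →
      |∑ i ∈ s, L i * (at_ i).pair h| ≤ M) :
    ∑ i ∈ s₁, L i * B.form (at_ i) (sel B.A P g)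
      ≤ M + 3 * Real.sqrt (2 * (∑ i ∈ s, L i) * ∑ i ∈ s, L i * B.dft (at_ i)) := by
  set K := Real.sqrt (2 * (∑ i ∈ s, L i) * ∑ i ∈ s, L i * B.dft (at_ i)) with hK
  have hs2 : σ * σ = 1 := by rcases hσ with rfl | rfl <;> norm_num
  let g' : Node → ℝ := fun t => σ * g t
  let χ := Vale.Agent.P069.clip g'
  have hg' : Bd g' := hg.mul_sign hσ
  have hg'0 : ∀ t ∈ B.A, g' t = 0 := fun t ht => by simp [g', hg0 t ht]
  have hχ : Bd χ := hg'.clip
  have hχ0 : ∀ t ∈ B.A, χ t = 0 := fun t ht => clip_eq_zero (hg'0 t ht)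
  have hseg : ∀ S, segSum g' S = σ * segSum g S := fun S => by simp [g', segSum, mul_sum]
  have hmass : Real.sqrt (∑ p ∈ B.A.filter (fun p => P (some p)), B.mass s L at_ (-σ) p ^ 2)
      ≤ K := by
    refine Real.sqrt_le_sqrt (le_trans ?_ (B.mass_prod_le hL at_))
    refine le_trans (sum_le_sum fun p hp => ?_) (sum_le_sum_of_subset_of_nonneg (filter_subset _ _)
      fun p _ _ => mul_nonneg (B.mass_nonneg hL _ _ _) (B.mass_nonneg hL _ _ _))
    have h1 := hP p (mem_filter.1 hp).1 (mem_filter.1 hp).2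
    have h2 := B.mass_nonneg (s := s) hL at_ (-σ) p
    rw [sq]
    rcases hσ with rfl | rfl
    · exact mul_le_mul_of_nonneg_right h1 h2
    · simp only [neg_neg] at h1 h2 ⊢
      exact mul_le_mul_of_nonneg_left h1 h2
  have hdec : ∀ S, segSum B.f S * segSum g S
      = B.pos σ S * segSum g' S - B.pos (-σ) S * segSum g' S := by
    intro S
    rw [← sub_mul, hseg]
    have : B.pos σ S - B.pos (-σ) S = σ * segSum B.f S := by
      simp only [Base.pos, neg_mul]
      rcases le_total (σ * segSum B.f S) 0 with h | h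
      · rw [max_eq_right h, max_eq_left (by linarith)]
        ring
      · rw [max_eq_left h, max_eq_right (by linarith)]
        ring
    rw [this]
    linear_combination (-(segSum B.f S * segSum g S)) * hs2
  have hχval : ∀ S, segSum B.f S ≠ 0 →
      segSum g' S ≤ segSum χ S ∧ 0 ≤ segSum χ S := by
    intro S hS
    have h := chainSum_lo_eq_zero B.down hg'0 (B.lo_lt_cut hS).le
    rw [segSum_clip, segSum_eq_chainSum, h]
    simp
  have hu : ∀ S, B.pos σ S * segSum g' S ≤ B.pos σ S * segSum χ S ∧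
      0 ≤ B.pos σ S * segSum χ S := by
    intro S
    by_cases h0 : segSum B.f S = 0
    · simp [Base.pos, h0]
    · exact ⟨mul_le_mul_of_nonneg_left (hχval S h0).1 (B.pos_nonneg _ _),
        mul_nonneg (B.pos_nonneg _ _) (hχval S h0).2⟩
  have hneg := (B.mass_test (s := s) hL at_ (-σ) P hg' hg'0).trans hmass
  have hnegχ := (B.mass_test (s := s) hL at_ (-σ) P hχ hχ0).trans hmass
  have hA : ∑ i ∈ s₁, L i * B.form (at_ i) (sel B.A P g) ≤
      ∑ i ∈ s, L i * (∑ S ∈ (at_ i).F, if P (key B.A S) then B.pos σ S * segSum χ S else 0)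
      + ∑ i ∈ s, L i *
        ∑ S ∈ (at_ i).F, (if P (key B.A S) then B.pos (-σ) S * |segSum g' S| else 0) := by
    rw [← sum_add_distrib]
    refine le_trans (sum_le_sum fun i _ => ?_) (sum_le_sum_of_subset_of_nonneg hsub ?_)
    · rw [← mul_add, ← sum_add_distrib, Base.form]
      refine mul_le_mul_of_nonneg_left (sum_le_sum fun S _ => ?_) (hL i)
      rw [segSum_sel B.down P hg0]
      split_ifs
      · rw [hdec]
        have := mul_le_mul_of_nonneg_left (neg_abs_le (segSum g' S)) (B.pos_nonneg (-σ) S)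
        linarith [(hu S).1]
      · simp
    · intro i _ _
      refine add_nonneg (mul_nonneg (hL i) (sum_nonneg fun S _ => ?_))
        (mul_nonneg (hL i) (sum_nonneg fun S _ => ?_)) <;> split_ifs
      · exact (hu S).2
      · rfl
      · exact mul_nonneg (B.pos_nonneg _ _) (abs_nonneg _)
      · rfl
  have hB : ∑ i ∈ s, L i * (∑ S ∈ (at_ i).F, if P (key B.A S) then B.pos σ S * segSum χ S else 0)
      ≤ σ * (∑ i ∈ s, L i * B.form (at_ i) (sel B.A P χ))
        + ∑ i ∈ s, L i *
          ∑ S ∈ (at_ i).F, (if P (key B.A S) then B.pos (-σ) S * |segSum χ S| else 0) := by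
    rw [mul_sum, ← sum_add_distrib]
    refine sum_le_sum fun i _ => ?_
    rw [← mul_assoc, mul_comm σ (L i), mul_assoc, ← mul_add, Base.form, mul_sum _ _ σ, ← sum_add_distrib]
    refine mul_le_mul_of_nonneg_left (sum_le_sum fun S _ => ?_) (hL i)
    rw [segSum_sel B.down P hχ0]
    split_ifs
    · have : B.pos σ S = σ * segSum B.f S + B.pos (-σ) S := by
        simp only [Base.pos, neg_mul]
        rcases le_total (σ * segSum B.f S) 0 with h | h
        · rw [max_eq_right h, max_eq_left (by linarith)]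
          ring
        · rw [max_eq_left h, max_eq_right (by linarith)]
          ring
      have h2 := mul_le_mul_of_nonneg_left (le_abs_self (segSum χ S)) (B.pos_nonneg (-σ) S)
      rw [this, add_mul, mul_assoc]
      linarith
    · simp
  have hsb : Bd (sel B.A P χ) := hχ.sel B.down P hχ0
  have hC := hM (sel B.A P χ) hsb fun t ht => by
    simp only [sel, χ]
    split_ifs
    · exact clip_eq_zero (by simp [g', ht])
    · rfl
  have hD := B.sum_pair_sub_form s hL at_ hsb
  rw [abs_le] at hC hD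
  rcases hσ with rfl | rfl <;> linarith

theorem pair_add (a : Atom) (f g : Node → ℝ) : a.pair (f + g) = a.pair f + a.pair g := by
  simp [Atom.pair, segSum, sum_add_distrib, mul_add]

theorem form_add (B : Base) (a : Atom) (f g : Node → ℝ) :
    B.form a (f + g) = B.form a f + B.form a g := by
  simp [Base.form, segSum, sum_add_distrib, mul_add]

theorem apply_combination {ι : Type} (s : Finset ι) (L : ι → ℝ) (at_ : ι → Atom)
    (f : X →L[ℝ] ℝ) :
    f (∑ i ∈ s, L i • el (at_ i)) = ∑ i ∈ s, L i * (at_ i).pair (vals f) := by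
  simp [map_sum, apply_el]

theorem abs_apply_le {f : X →L[ℝ] ℝ} (hf : ‖f‖ ≤ 1) (x : X) : |f x| ≤ ‖x‖ :=
  (f.le_opNorm x).trans (mul_le_of_le_one_left (norm_nonneg x) hf)

/-- The quantitative core of the midpoint property. -/
theorem core {A : Finset Node} (hA : Down A) {x₀ y : X} (hx₀ : proj A x₀ = x₀)
    (hy : ∀ t ∈ A, coord t y = 0) (hy1 : ‖y‖ = 1) {τ δ : ℝ} (hτ : 0 ≤ τ) (hδ : 0 < δ)
    (hδ1 : δ ≤ 1) (hn : 1 - δ ≤ ‖x₀‖) (hp : ‖x₀ + τ • y‖ ≤ 1 + 2 * δ)
    (hm : ‖x₀ - τ • y‖ ≤ 1 + 2 * δ) : τ ≤ 100 * Real.sqrt δ - 3 * Real.sqrt δ := by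
  obtain ⟨g, hg, hgx⟩ := exists_dual_vector'' ℝ x₀
  let B : Base := ⟨A, hA, inside A (vals g), (bd_vals hg).inside hA,
    fun t ht => by simp [inside, ht]⟩
  have hfx : func A (vals g) x₀ = ‖x₀‖ := by
    rw [← apply_proj, hx₀]
    exact hgx
  have hfy : func A (vals g) y = 0 := by
    rw [func_apply]
    exact sum_eq_zero fun t ht => by simp [hy t ht]
  have hfn : ‖func A (vals g)‖ ≤ 1 := norm_func_down_le (bd_vals hg) hA
  obtain ⟨s₁, l₁, σ₁, hl₁, hw₁, he₁⟩ := exists_approx (x₀ + τ • y) hδ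
  obtain ⟨s₂, l₂, σ₂, hl₂, hw₂, he₂⟩ := exists_approx (x₀ - τ • y) hδ
  let L : Atom ⊕ Atom → ℝ := Sum.elim l₁ l₂
  let at_ : Atom ⊕ Atom → Atom := Sum.elim σ₁ σ₂
  let t₁ : Finset (Atom ⊕ Atom) := s₁.map Function.Embedding.inl
  let s := s₁.disjSum s₂
  have hL : ∀ i, 0 ≤ L i := by rintro (a | a) <;> simp [L, hl₁, hl₂]
  have hsub : t₁ ⊆ s := by
    intro i hi
    obtain ⟨a, ha, rfl⟩ := mem_map.1 hi
    exact inl_mem_disjSum.2 ha
  set z₁ := ∑ a ∈ s₁, l₁ a • el (σ₁ a) with hz₁
  set z₂ := ∑ a ∈ s₂, l₂ a • el (σ₂ a) with hz₂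
  have hd₁ : ∑ a ∈ s₁, l₁ a * B.dft (σ₁ a) ≤ 5 * δ := by
    have e : ∑ a ∈ s₁, l₁ a * B.dft (σ₁ a) = ∑ a ∈ s₁, l₁ a - func A (vals g) z₁ := by
      rw [hz₁, apply_combination, vals_func]
      simp [Base.dft, B, mul_sub]
    have h := abs_le.1 ((abs_apply_le hfn (x₀ + τ • y - z₁)).trans he₁)
    rw [map_sub, map_add, map_smul, hfx, hfy] at h
    simp only [smul_zero, add_zero] at h
    rw [e]
    linarith [h.1, h.2]
  have hd₂ : ∑ a ∈ s₂, l₂ a * B.dft (σ₂ a) ≤ 5 * δ := by
    have e : ∑ a ∈ s₂, l₂ a * B.dft (σ₂ a) = ∑ a ∈ s₂, l₂ a - func A (vals g) z₂ := by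
      rw [hz₂, apply_combination, vals_func]
      simp [Base.dft, B, mul_sub]
    have h := abs_le.1 ((abs_apply_le hfn (x₀ - τ • y - z₂)).trans he₂)
    rw [map_sub, map_sub, map_smul, hfx, hfy] at h
    simp only [smul_zero, sub_zero] at h
    rw [e]
    linarith [h.1, h.2]
  set W := 2 * (∑ i ∈ s, L i) * ∑ i ∈ s, L i * B.dft (at_ i) with hW
  have hW' : Real.sqrt W ≤ 13 * Real.sqrt δ := by
    have h1 : ∑ i ∈ s, L i ≤ 8 := by
      simp only [s, sum_disjSum, L, Sum.elim_inl, Sum.elim_inr]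
      linarith
    have h2 : ∑ i ∈ s, L i * B.dft (at_ i) ≤ 10 * δ := by
      simp only [s, sum_disjSum, L, at_, Sum.elim_inl, Sum.elim_inr]
      linarith
    have h0 : 0 ≤ ∑ i ∈ s, L i * B.dft (at_ i) :=
      sum_nonneg fun i _ => mul_nonneg (hL i) (B.dft_nonneg _)
    rw [show (13 : ℝ) * Real.sqrt δ = Real.sqrt (13 ^ 2 * δ) by
      rw [Real.sqrt_mul (by norm_num), Real.sqrt_sq (by norm_num)]]
    exact Real.sqrt_le_sqrt (by rw [hW]; nlinarith)
  -- the test functional, supported outside `A`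
  let D := downCl (A ∪ (s₁.biUnion fun a => (σ₁ a).supp) ∪ (s₂.biUnion fun a => (σ₂ a).supp))
  obtain ⟨h, hh, hhx⟩ := exists_dual_vector'' ℝ (z₁ - proj A z₁)
  let ψ := outside A (inside D (vals h))
  have hψ : Bd ψ := ((bd_vals hh).inside (down_downCl _)).outside hA
  have hψ0 : ∀ t ∈ A, ψ t = 0 := fun t ht => by simp [ψ, outside, ht]
  have hψval : ∀ u : Node → ℝ, (∀ t, ψ t = 0 → u t = 0) → vals (func D u) = u := by
    intro u hu
    rw [vals_func]
    funext t
    simp only [inside]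
    split_ifs with ht
    · rfl
    · exact (hu t (by simp [ψ, outside, inside, ht])).symm
  have hval : ∑ a ∈ s₁, l₁ a * (σ₁ a).pair ψ = ‖z₁ - proj A z₁‖ := by
    have e1 : ∑ a ∈ s₁, l₁ a * (σ₁ a).pair ψ = func D ψ z₁ := by
      rw [hz₁, apply_combination, hψval ψ fun t ht => ht]
    have e2 : z₁ - proj A z₁
        = ∑ t ∈ D, (if t ∈ A then 0 else coord t z₁) • ev t := by
      refine ext_coord fun u => ?_
      rw [map_sub, coord_proj, coord_sum_ev]
      split_ifs with h1 h2 h2
      · simp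
      · exact absurd (subset_downCl _ (by simp [h1])) h2
      · simp
      · rw [sub_zero, hz₁]
        simp only [map_sum, map_smul, coord_el, smul_eq_mul]
        refine sum_eq_zero fun a ha => ?_
        rw [(σ₁ a).val_eq_zero fun hc => h2 (subset_downCl _ (by
          simp only [mem_union, mem_biUnion]
          exact Or.inl (Or.inr ⟨a, ha, hc⟩))), mul_zero]
    rw [e1, show (‖z₁ - proj A z₁‖) = h (z₁ - proj A z₁) from hhx.symm, e2, func_apply, map_sum]
    refine sum_congr rfl fun t ht => ?_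
    simp only [ψ, outside, inside, map_smul, smul_eq_mul, vals]
    split_ifs <;> ring
  have hlow : τ - 2 * δ ≤ ‖z₁ - proj A z₁‖ := by
    have e : τ • y = (z₁ - proj A z₁) + ((x₀ + τ • y - z₁) - proj A (x₀ + τ • y - z₁)) := by
      have : proj A (τ • y) = 0 := by
        refine ext_coord fun u => ?_
        rw [coord_proj]
        split_ifs with hu
        · simp [hy u hu]
        · simp
      simp only [map_sub, map_add, this, hx₀]
      abel
    have h1 : ‖τ • y‖ = τ := by rw [norm_smul, hy1, Real.norm_of_nonneg hτ, mul_one]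
    have h2 := norm_add_le (z₁ - proj A z₁) ((x₀ + τ • y - z₁) - proj A (x₀ + τ • y - z₁))
    rw [← e, h1] at h2
    have h3 := norm_sub_le (x₀ + τ • y - z₁) (proj A (x₀ + τ • y - z₁))
    have h4 := norm_proj_le hA (x₀ + τ • y - z₁)
    linarith
  -- total pairings of test functions with both decompositions are small
  have hMbd : ∀ u : Node → ℝ, Bd u → (∀ t, ψ t = 0 → u t = 0) →
      |∑ i ∈ s, L i * (at_ i).pair u| ≤ 2 * δ := by
    intro u hu hu0
    have hn : ‖func D u‖ ≤ 1 := norm_le_one_of_bd (by rwa [hψval u hu0])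
    have hu0x : func D u x₀ = 0 := by
      rw [func_apply]
      refine sum_eq_zero fun t _ => ?_
      by_cases ht : t ∈ A
      · simp [hu0 t (hψ0 t ht)]
      · rw [← hx₀, coord_proj, if_neg ht, mul_zero]
    have e : ∑ i ∈ s, L i * (at_ i).pair u = func D u z₁ + func D u z₂ := by
      simp [s, L, at_, hz₁, hz₂, apply_el, hψval u hu0]
    have h1 := abs_le.1 ((abs_apply_le hn (x₀ + τ • y - z₁)).trans he₁)
    have h2 := abs_le.1 ((abs_apply_le hn (x₀ - τ • y - z₂)).trans he₂)
    rw [map_sub, map_add, hu0x] at h1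
    rw [map_sub, map_sub, hu0x] at h2
    rw [e, abs_le]
    constructor <;> linarith [h1.1, h1.2, h2.1, h2.2]
  let P : Option Node → Prop := fun o => ∀ p, o = some p → B.mass s L at_ (-1) p ≤ B.mass s L at_ 1 p
  have hb1 := B.half_bound hsub hL at_ (σ := 1) (Or.inl rfl) P
    (fun p _ hp => hp p rfl) hψ hψ0 hMbd
  have hb2 := B.half_bound hsub hL at_ (σ := -1) (Or.inr rfl) (fun o => ¬ P o)
    (fun p _ hp => by
      simp only [P, Option.some.injEq] at hp
      push Not at hp
      obtain ⟨q, hq, hq'⟩ := hp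
      subst hq
      rw [neg_neg]
      exact hq'.le) hψ hψ0 hMbd
  have hsum : sel A P ψ + sel A (fun o => ¬ P o) ψ = ψ := by
    funext t
    by_cases ht : P (key A (Seg.point t)) <;> simp [sel, ht]
  have hf : ∑ i ∈ t₁, L i * B.form (at_ i) ψ ≤ 4 * δ + 6 * Real.sqrt W := by
    have : ∑ i ∈ t₁, L i * B.form (at_ i) ψ
        = ∑ i ∈ t₁, L i * B.form (at_ i) (sel A P ψ)
          + ∑ i ∈ t₁, L i * B.form (at_ i) (sel A (fun o => ¬ P o) ψ) := by
      rw [← sum_add_distrib]
      exact sum_congr rfl fun i _ => by rw [← mul_add, ← form_add, hsum]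
    rw [this]
    linarith
  have hpf := abs_le.1 (B.sum_pair_sub_form t₁ hL at_ hψ)
  have hmono : Real.sqrt (2 * (∑ i ∈ t₁, L i) * ∑ i ∈ t₁, L i * B.dft (at_ i)) ≤ Real.sqrt W := by
    refine Real.sqrt_le_sqrt ?_
    have a1 := sum_le_sum_of_subset_of_nonneg hsub fun i _ _ => hL i
    have a2 := sum_le_sum_of_subset_of_nonneg hsub fun i _ _ =>
      mul_nonneg (hL i) (B.dft_nonneg (at_ i))
    have a3 : 0 ≤ ∑ i ∈ s, L i := sum_nonneg fun i _ => hL i
    have a4 : 0 ≤ ∑ i ∈ t₁, L i * B.dft (at_ i) :=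
      sum_nonneg fun i _ => mul_nonneg (hL i) (B.dft_nonneg _)
    rw [hW]
    nlinarith
  have ht₁ : ∑ i ∈ t₁, L i * (at_ i).pair ψ = ∑ a ∈ s₁, l₁ a * (σ₁ a).pair ψ := by
    simp [t₁, L, at_]
  have hδs : δ ≤ Real.sqrt δ := Real.le_sqrt_of_sq_le (by nlinarith)
  nlinarith [hpf.1, hpf.2, Real.sqrt_nonneg δ]

/-- The midpoint property of the norm. -/
theorem amuc_estimate {τ : ℝ} (hτ : 0 < τ) :
    ∃ δ : ℝ, 0 < δ ∧ ∀ x : X, ‖x‖ = 1 → ∃ F : Submodule ℝ X, IsClosed (F : Set X) ∧
      FiniteDimensional ℝ (X ⧸ F) ∧ ∀ y ∈ F, ‖y‖ = 1 →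
        δ ≤ max ‖x + τ • y‖ ‖x - τ • y‖ - 1 := by
  refine ⟨min 1 ((τ / 100) ^ 2), by positivity, fun x hx => ?_⟩
  set δ := min 1 ((τ / 100) ^ 2) with hδ
  have hδ0 : 0 < δ := by positivity
  obtain ⟨A, hA, x₀, hxz, hx₀⟩ := exists_finite_approx x hδ0
  let π : X →L[ℝ] (A → ℝ) := ContinuousLinearMap.pi fun t => coord t.1
  refine ⟨LinearMap.ker (π : X →ₗ[ℝ] (A → ℝ)), π.isClosed_ker, ?_, fun y hy hy1 => ?_⟩
  · exact Module.Finite.equiv (LinearMap.quotKerEquivRange (π : X →ₗ[ℝ] (A → ℝ))).symm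
  · by_contra hlt
    push Not at hlt
    have hy0 : ∀ t ∈ A, coord t y = 0 := fun t ht => congrFun (LinearMap.mem_ker.1 hy) ⟨t, ht⟩
    have hd1 : δ ≤ 1 := min_le_left _ _
    have b1 := le_max_left ‖x + τ • y‖ ‖x - τ • y‖
    have b2 := le_max_right ‖x + τ • y‖ ‖x - τ • y‖
    have e1 : x₀ + τ • y = (x + τ • y) - (x - x₀) := by abel
    have e2 : x₀ - τ • y = (x - τ • y) - (x - x₀) := by abel
    have n1 := norm_sub_le (x + τ • y) (x - x₀)
    have n2 := norm_sub_le (x - τ • y) (x - x₀)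
    have n3 := norm_sub_norm_le x x₀
    rw [← e1] at n1
    rw [← e2] at n2
    have h := core hA hx₀ hy0 hy1 hτ.le hδ0 hd1 (by linarith) (by linarith) (by linarith)
    have hs : Real.sqrt δ ≤ τ / 100 :=
      Real.sqrt_le_iff.2 ⟨by positivity, min_le_right _ _⟩
    nlinarith [Real.sqrt_pos.2 hδ0]

end Vale.Agent.P069
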