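import Mathlib

/-!
The asymptotic moduli of a norm on a real Banach space, as defined for problem P069.
-/

namespace Vale.Agent.P069

variable {E : Type} [NormedAddCommGroup E] [NormedSpace ℝ E]

/-- `N` is an equivalent norm on `E`. -/
def IsEquivalentNorm (N : E → ℝ) : Prop :=
  (∀ x y, N (x + y) ≤ N x + N y) ∧ (∀ (a : ℝ) x, N (a • x) = |a| * N x) ∧
    ∃ c C : ℝ, 0 < c ∧ ∀ x, c * ‖x‖ ≤ N x ∧ N x ≤ C * ‖x‖

/-- `F` is a closed subspace of finite codimension. -/
def IsCof (F : Submodule ℝ E) : Prop :=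
  IsClosed (F : Set E) ∧ FiniteDimensional ℝ (E ⧸ F)

/-- The modulus of asymptotic uniform convexity of `N`, with values in the extended reals. -/
noncomputable def aucModulus (N : E → ℝ) (t : ℝ) : EReal :=
  ⨅ (x : E) (_ : N x = 1), ⨆ (F : Submodule ℝ E) (_ : IsCof F),
    ⨅ (y : E) (_ : y ∈ F ∧ N y = 1), ((N (x + t • y) - 1 : ℝ) : EReal)

/-- The modulus of asymptotic midpoint uniform convexity of `N`, with values in the extended
reals. -/
noncomputable def amucModulus (N : E → ℝ) (t : ℝ) : EReal :=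
  ⨅ (x : E) (_ : N x = 1), ⨆ (F : Submodule ℝ E) (_ : IsCof F),
    ⨅ (y : E) (_ : y ∈ F ∧ N y = 1), ((max (N (x + t • y)) (N (x - t • y)) - 1 : ℝ) : EReal)

/-- `N` is asymptotically uniformly convex. -/
def IsAUC (N : E → ℝ) : Prop := ∀ t : ℝ, 0 < t → 0 < aucModulus N t

/-- `N` is asymptotically midpoint uniformly convex. -/
def IsAMUC (N : E → ℝ) : Prop := ∀ t : ℝ, 0 < t → 0 < amucModulus N t

end Vale.Agent.P069
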