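import Mathlib
import Vale.Agent.P069.Space

/-!
No equivalent norm is asymptotically uniformly convex; infinite dimension and separability.
-/

namespace Vale.Agent.P069

open Finset
open scoped Classical

/-- The segment from the root to a node. -/
def rootSeg (t : Node) : Seg := ⟨t, 0, Nat.zero_le _⟩

/-- The indicator of the branch from the root to a node. -/
noncomputable def br (t : Node) : X := el (segAtom (rootSeg t))

theorem norm_br_le (t : Node) : ‖br t‖ ≤ 1 := norm_el_le _

theorem coord_br (s t : Node) : coord s (br t) = if s ∈ (rootSeg t).nodes then 1 else 0 := by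
  simp [br, coord_el, Atom.val, segAtom, Finset.filter_singleton, apply_ite]

theorem one_le_norm_br (t : Node) : 1 ≤ ‖br t‖ := by
  have h1 := (coord t).le_opNorm (br t)
  have h2 := norm_coord_le t
  rw [coord_br, if_pos (by simpa [rootSeg] using (rootSeg t).bot_mem_nodes)] at h1
  simp only [norm_one] at h1
  nlinarith [norm_nonneg (br t), norm_nonneg (coord t)]

/-- The `k`-th child of a node. -/
def child (t : Node) (h : lev t < tree t) (k : ℕ) : Node := ⟨(t.1.1, k :: t.1.2), h⟩

theorem child_injective (t : Node) (h : lev t < tree t) : Function.Injective (child t h) := by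
  intro a b hab
  have := congrArg (fun u : Node => u.1.2) hab
  simpa [child] using this

theorem lev_child (t : Node) (h : lev t < tree t) (k : ℕ) : lev (child t h k) = lev t + 1 := rfl

theorem anc_child (t : Node) (h : lev t < tree t) (k : ℕ) {j : ℕ} (hj : j ≤ lev t) :
    anc (child t h k) j = anc t j := by
  apply Subtype.ext
  have e : (k :: t.1.2).length - j = (t.1.2.length - j) + 1 := by
    simp only [lev] at hj
    simp only [List.length_cons]
    omega
  change (t.1.1, (k :: t.1.2).drop ((k :: t.1.2).length - j)) = _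
  rw [e, List.drop_succ_cons]
  rfl

theorem br_child (t : Node) (h : lev t < tree t) (k : ℕ) :
    br (child t h k) = br t + ev (child t h k) := by
  refine ext_coord fun s => ?_
  have hn : (rootSeg (child t h k)).nodes = insert (child t h k) (rootSeg t).nodes := by
    ext u
    simp only [mem_insert, Seg.mem_nodes, rootSeg, Nat.zero_le, true_and, lev_child]
    constructor
    · rintro ⟨h1, h2⟩
      rcases Nat.lt_or_ge (lev t) (lev u) with h3 | h3
      · left
        rw [← h2, anc_of_le _ (by rw [lev_child]; omega)]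
      · exact Or.inr ⟨h3, by rw [← anc_child t h k h3, h2]⟩
    · rintro (rfl | ⟨h1, h2⟩)
      · exact ⟨by rw [lev_child], anc_self _⟩
      · exact ⟨by omega, by rw [anc_child t h k h1, h2]⟩
  have hnot : child t h k ∉ (rootSeg t).nodes := by
    intro hm
    have h1 := (Seg.mem_nodes.1 hm).2.1
    simp only [rootSeg, lev_child] at h1
    omega
  rw [map_add, coord_br, coord_br, coord_ev, hn]
  by_cases h1 : s = child t h k
  · simp [h1, hnot]
  · simp [h1]

theorem sum_sq_apply_ev_le (f : X →L[ℝ] ℝ) (s : Finset Node) :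
    ∑ t ∈ s, f (ev t) ^ 2 ≤ ‖f‖ ^ 2 := by
  have hinj : Set.InjOn Seg.point (s : Set Node) := fun a _ b _ h => congrArg Seg.bot h
  have h := sum_sq_vals_le f (F := s.image Seg.point) (by
    intro a ha b hb hne
    simp only [coe_image, Set.mem_image] at ha hb
    obtain ⟨u, -, rfl⟩ := ha
    obtain ⟨w, -, rfl⟩ := hb
    simp only [Function.onFun, Seg.nodes_point, disjoint_singleton]
    exact fun h => hne (congrArg Seg.point h))
  rw [sum_image hinj] at h
  simpa [segSum, vals] using h

theorem tendsto_apply_child (f : X →L[ℝ] ℝ) (t : Node) (h : lev t < tree t) :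
    Filter.Tendsto (fun k => f (ev (child t h k))) Filter.atTop (nhds 0) := by
  have hs : Summable fun k => f (ev (child t h k)) ^ 2 := by
    refine summable_of_sum_le (fun k => sq_nonneg _) (c := ‖f‖ ^ 2) fun u => ?_
    rw [← sum_image (f := fun t => f (ev t) ^ 2) ((child_injective t h).injOn)]
    exact sum_sq_apply_ev_le f _
  have h2 := (Real.continuous_sqrt.tendsto 0).comp hs.tendsto_atTop_zero
  simp only [Function.comp_def, Real.sqrt_zero, Real.sqrt_sq_eq_abs] at h2
  exact (tendsto_zero_iff_abs_tendsto_zero _).2 h2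

/-- A sequence of children, moved into a closed subspace of finite codimension. -/
theorem exists_near_child (F : Submodule ℝ X) (hFc : IsClosed (F : Set X))
    (hFf : FiniteDimensional ℝ (X ⧸ F)) (t : Node) (h : lev t < tree t) {ε : ℝ} (hε : 0 < ε) :
    ∃ k : ℕ, ∃ y ∈ F, ‖ev (child t h k) - y‖ ≤ ε := by
  have := hFc
  obtain ⟨σ, hσ⟩ := F.mkQ.exists_rightInverse_of_surjective
    (LinearMap.range_eq_top.2 (Submodule.Quotient.mk_surjective F))
  let π : X →L[ℝ] X ⧸ F := LinearMap.mkContinuous F.mkQ 1 fun x => by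
    rw [one_mul]; exact Submodule.Quotient.norm_mk_le F x
  let b := Module.finBasis ℝ (X ⧸ F)
  have hlim : Filter.Tendsto (fun k => σ (π (ev (child t h k)))) Filter.atTop (nhds 0) := by
    have e : ∀ x : X, σ (π x)
        = ∑ i, ((b.coord i).toContinuousLinearMap.comp π) x • σ (b i) := by
      intro x
      conv_lhs => rw [← b.sum_repr (π x), map_sum]
      exact sum_congr rfl fun i _ => map_smul σ _ _
    simp only [e]
    rw [show (0 : X) = ∑ i, (0 : ℝ) • σ (b i) by simp]
    exact tendsto_finsetSum _ fun i _ => (tendsto_apply_child _ t h).smul_const _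
  obtain ⟨k, hk⟩ := (hlim.eventually (Metric.closedBall_mem_nhds (0 : X) hε)).exists
  refine ⟨k, ev (child t h k) - σ (π (ev (child t h k))), ?_, ?_⟩
  · rw [← Submodule.Quotient.mk_eq_zero F, Submodule.Quotient.mk_sub, sub_eq_zero]
    exact (LinearMap.congr_fun hσ (π (ev (child t h k)))).symm
  · simpa [dist_eq_norm] using hk

/-- A quantitative obstruction to asymptotic uniform convexity of an equivalent norm. -/
theorem no_auc (N : X → ℝ) (hadd : ∀ x y, N (x + y) ≤ N x + N y)
    (hsmul : ∀ (a : ℝ) x, N (a • x) = |a| * N x) {c C : ℝ} (hc : 0 < c)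
    (hN : ∀ x, c * ‖x‖ ≤ N x ∧ N x ≤ C * ‖x‖)
    (hauc : ∀ τ : ℝ, 0 < τ → ∃ δ : ℝ, 0 < δ ∧ ∀ x, N x = 1 → ∃ F : Submodule ℝ X,
      IsClosed (F : Set X) ∧ FiniteDimensional ℝ (X ⧸ F) ∧
        ∀ y ∈ F, N y = 1 → δ ≤ N (x + τ • y) - 1) : False := by
  have hC : 0 < C := by
    have h1 := hN (ev ⟨(0, []), le_rfl⟩)
    rw [norm_ev] at h1
    linarith [h1.1, h1.2]
  obtain ⟨δ, hδ, hmod⟩ := hauc (c / 2 / C) (by positivity)
  have step : ∀ (t : Node) (h : lev t < tree t),
      ∃ k, (1 + δ / 2) * N (br t) ≤ N (br (child t h k)) := by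
    intro t h
    set x := br t
    have hx : c ≤ N x := le_trans (by nlinarith [one_le_norm_br t]) (hN x).1
    have hx' : N x ≤ C := (hN x).2.trans (by nlinarith [norm_br_le t])
    have hx0 : 0 < N x := lt_of_lt_of_le hc hx
    obtain ⟨F, hFc, hFf, hF⟩ := hmod ((N x)⁻¹ • x) (by
      rw [hsmul, abs_of_pos (inv_pos.2 hx0), inv_mul_cancel₀ hx0.ne'])
    obtain ⟨k, y, hy, hyk⟩ := exists_near_child F hFc hFf t h
      (ε := min (1 / 2) (δ * c / (2 * C))) (by positivity)
    refine ⟨k, ?_⟩
    have hyn : 1 / 2 ≤ ‖y‖ := by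
      have := norm_sub_norm_le (ev (child t h k)) y
      rw [norm_ev] at this
      linarith [min_le_left (1 / 2 : ℝ) (δ * c / (2 * C))]
    have hy0 : c / 2 ≤ N y := le_trans (by nlinarith) (hN y).1
    have hyp : 0 < N y := lt_of_lt_of_le (by positivity) hy0
    have h1 := hF ((N y)⁻¹ • y) (F.smul_mem _ hy) (by
      rw [hsmul, abs_of_pos (inv_pos.2 hyp), inv_mul_cancel₀ hyp.ne'])
    -- convexity: a longer step only increases the norm
    have hr0 : 0 < c / 2 / C * N x / N y := by positivity
    have hr1 : c / 2 / C * N x / N y ≤ 1 := by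
      rw [div_le_one hyp, div_mul_eq_mul_div, div_le_iff₀ hC]
      nlinarith
    set r := c / 2 / C * N x / N y
    have e : N x • ((N x)⁻¹ • x + (c / 2 / C) • (N y)⁻¹ • y) = (1 - r) • x + r • (x + y) := by
      rw [smul_add, smul_smul, mul_inv_cancel₀ hx0.ne', one_smul, smul_smul, smul_smul,
        show N x * (c / 2 / C) * (N y)⁻¹ = r by simp only [r]; field_simp]
      module
    have h2 : N x * (1 + δ) ≤ (1 - r) * N x + r * N (x + y) := by
      have h3 := hadd ((1 - r) • x) (r • (x + y))
      rw [← e, hsmul, hsmul, hsmul, abs_of_pos hx0, abs_of_pos hr0,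
        abs_of_nonneg (by linarith : (0 : ℝ) ≤ 1 - r)] at h3
      nlinarith
    have h3 : N x * (1 + δ) ≤ N (x + y) := by
      have : 0 ≤ δ * N x * (1 - r) := by
        have : 0 ≤ 1 - r := by linarith
        positivity
      nlinarith
    rw [br_child]
    have h4 := hadd (x + ev (child t h k)) (y - ev (child t h k))
    rw [show x + ev (child t h k) + (y - ev (child t h k)) = x + y by abel] at h4
    have h5 : N (y - ev (child t h k)) ≤ δ / 2 * N x := by
      refine (hN _).2.trans ?_
      rw [norm_sub_rev]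
      calc C * ‖ev (child t h k) - y‖ ≤ C * (δ * c / (2 * C)) :=
            mul_le_mul_of_nonneg_left (hyk.trans (min_le_right _ _)) hC.le
        _ = δ / 2 * c := by field_simp
        _ ≤ δ / 2 * N x := by nlinarith
    linarith
  obtain ⟨n, hn⟩ := pow_unbounded_of_one_lt (C / c) (show 1 < 1 + δ / 2 by linarith)
  have main : ∀ j ≤ n, ∃ t : Node, lev t = j ∧ tree t = n ∧ c * (1 + δ / 2) ^ j ≤ N (br t) := by
    intro j
    induction j with
    | zero =>
      intro _
      refine ⟨⟨(n, []), Nat.zero_le _⟩, rfl, rfl, ?_⟩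
      rw [pow_zero, mul_one]
      exact le_trans (by nlinarith [one_le_norm_br ⟨(n, []), Nat.zero_le _⟩]) (hN _).1
    | succ j ih =>
      intro hj
      obtain ⟨t, ht1, ht2, ht3⟩ := ih (by omega)
      obtain ⟨k, hk⟩ := step t (by omega)
      refine ⟨child t (by omega) k, by rw [lev_child, ht1], ht2, le_trans ?_ hk⟩
      rw [pow_succ]
      nlinarith
  obtain ⟨t, -, -, ht⟩ := main n le_rfl
  have h1 := (hN (br t)).2.trans (by nlinarith [norm_br_le t] : C * ‖br t‖ ≤ C)
  rw [div_lt_iff₀ hc] at hn
  nlinarith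

theorem linearIndependent_ev : LinearIndependent ℝ ev := by
  rw [linearIndependent_iff']
  intro s g hg i hi
  have := congrArg (coord i) hg
  rw [coord_sum_ev, if_pos hi, map_zero] at this
  exact this

theorem not_finiteDimensional : ¬ FiniteDimensional ℝ X := by
  intro h
  let root : ℕ → Node := fun n => ⟨(n, []), Nat.zero_le _⟩
  have hinj : Function.Injective root := fun a b hab => congrArg (fun u : Node => u.1.1) hab
  have := (linearIndependent_ev.comp root hinj).finite
  exact not_finite ℕ

theorem separableSpace : TopologicalSpace.SeparableSpace X := by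
  rw [← TopologicalSpace.isSeparable_univ_iff]
  refine ((Set.countable_range ev).isSeparable.span (R := ℝ)).closure.mono fun x _ => ?_
  rw [Metric.mem_closure_iff]
  intro ε hε
  obtain ⟨A, -, z, hz, hAz⟩ := exists_finite_approx x (half_pos hε)
  refine ⟨z, ?_, by rw [dist_eq_norm]; linarith⟩
  rw [← hAz, proj_apply]
  exact Submodule.sum_mem _ fun t _ => Submodule.smul_mem _ _ (Submodule.subset_span ⟨t, rfl⟩)

end Vale.Agent.P069
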