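import Mathlib
import Vale.Agent.P069.Space

/-!
The space is reflexive.
-/

namespace Vale.Agent.P069

open Finset
open scoped Classical

/-- Bounded nonnegative families have finite sets off which all finite sums are small. -/
theorem exists_tail {α : Type} (v : α → ℝ) (_hv : ∀ a, 0 ≤ v a) {C : ℝ}
    (hC : ∀ s : Finset α, ∑ a ∈ s, v a ≤ C) {ε : ℝ} (hε : 0 < ε) :
    ∃ s₀ : Finset α, ∀ s, Disjoint s₀ s → ∑ a ∈ s, v a ≤ ε := by
  obtain ⟨r, ⟨s₀, rfl⟩, hlt⟩ := exists_lt_of_lt_csSup
    (Set.range_nonempty fun s : Finset α => ∑ a ∈ s, v a)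
    (show sSup (Set.range fun s : Finset α => ∑ a ∈ s, v a) - ε
      < sSup (Set.range fun s : Finset α => ∑ a ∈ s, v a) by linarith)
  refine ⟨s₀, fun s hs => ?_⟩
  have h : ∑ a ∈ s₀ ∪ s, v a ≤ sSup (Set.range fun s : Finset α => ∑ a ∈ s, v a) :=
    le_csSup ⟨C, by rintro _ ⟨s, rfl⟩; exact hC s⟩ ⟨s₀ ∪ s, rfl⟩
  rw [sum_union hs] at h
  linarith

/-- In trees below `N`, segment sums are controlled by sums of squares. -/
theorem sum_sq_low_le (N : ℕ) {g : Node → ℝ} (s : Finset Node) (hg : ∀ t ∉ s, g t = 0)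
    (hN : ∀ t, N ≤ tree t → g t = 0) (F : Finset Seg) (hF : Disj F) :
    ∑ S ∈ F, segSum g S ^ 2 ≤ N * ∑ t ∈ s, g t ^ 2 := by
  calc ∑ S ∈ F, segSum g S ^ 2 ≤ ∑ S ∈ F, (N : ℝ) * ∑ t ∈ S.nodes, g t ^ 2 := by
        refine sum_le_sum fun S _ => ?_
        by_cases h : N ≤ tree S.bot
        · rw [segSum, sum_eq_zero fun t ht => hN t (Seg.tree_of_mem ht ▸ h)]
          simpa using mul_nonneg (Nat.cast_nonneg N) (sum_nonneg fun t _ => sq_nonneg (g t))
        · refine le_trans sq_sum_le_card_mul_sum_sq (mul_le_mul_of_nonneg_right ?_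
            (sum_nonneg fun t _ => sq_nonneg (g t)))
          have h1 : S.nodes.card ≤ (Icc S.lo (lev S.bot)).card := card_image_le
          have h2 := lev_le_tree S.bot
          simp only [Nat.card_Icc] at h1
          exact_mod_cast (show S.nodes.card ≤ N by omega)
    _ = (N : ℝ) * ∑ t ∈ F.biUnion Seg.nodes, g t ^ 2 := by rw [sum_biUnion hF, mul_sum]
    _ ≤ _ := by
        refine mul_le_mul_of_nonneg_left ?_ (Nat.cast_nonneg N)
        rw [← sum_filter_of_ne (p := fun t => t ∈ s)
          (fun t _ h => by by_contra ht; simp [hg t ht] at h)]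
        exact sum_le_sum_of_subset_of_nonneg (fun t ht => (mem_filter.1 ht).2)
          fun t _ _ => sq_nonneg _

theorem sum_sq_ev_le (f : X →L[ℝ] ℝ) (s : Finset Node) :
    ∑ t ∈ s, f (ev t) ^ 2 ≤ ‖f‖ ^ 2 := by
  have hinj : Set.InjOn Seg.point (s : Set Node) := fun a _ b _ h => congrArg Seg.bot h
  have h := sum_sq_vals_le f (F := s.image Seg.point) (by
    intro a ha b hb hne
    simp only [coe_image, Set.mem_image] at ha hb
    obtain ⟨u, -, rfl⟩ := ha
    obtain ⟨w, -, rfl⟩ := hb
    simp only [Function.onFun, Seg.nodes_point, disjoint_singleton]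
    exact fun h => hne (congrArg Seg.point h))
  rw [sum_image hinj] at h
  simpa [segSum, vals] using h

theorem norm_func_le_of_bd {g : Node → ℝ} {s : Finset Node} (hg : ∀ t ∉ s, g t = 0) (hb : Bd g) :
    ‖func s g‖ ≤ 1 := by
  refine norm_le_one_of_bd ?_
  rw [vals_func, show inside s g = g by
    funext t
    simp only [inside]
    split_ifs with h
    · rfl
    · exact (hg t h).symm]
  exact hb

theorem Bd.sum_sq_le {g : Node → ℝ} (hb : Bd g) (s : Finset Node) : ∑ t ∈ s, g t ^ 2 ≤ 1 := by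
  have h := hb.indexed s Seg.point (by
    intro a _ b _ hne
    simp only [Function.onFun, Seg.nodes_point, disjoint_singleton]
    exact hne)
  simpa [segSum] using h

/-- Functionals are approximated in norm by their finite down-closed truncations. -/
theorem exists_trunc (f : X →L[ℝ] ℝ) {ε : ℝ} (hε : 0 < ε) :
    ∃ s₁ : Finset Node, Down s₁ ∧ ∀ s, Down s → s₁ ⊆ s → ‖f - func s (vals f)‖ ≤ 2 * ε := by
  -- choose trees above which every family has small square sums
  obtain ⟨r, ⟨F₀, hF₀, rfl⟩, hlt⟩ := exists_lt_of_lt_csSup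
    (s := {r : ℝ | ∃ F, Disj F ∧ ∑ S ∈ F, segSum (vals f) S ^ 2 = r})
    ⟨0, ∅, by simp [Disj], by simp⟩
    (show sSup {r : ℝ | ∃ F, Disj F ∧ ∑ S ∈ F, segSum (vals f) S ^ 2 = r} - ε ^ 2
      < sSup {r : ℝ | ∃ F, Disj F ∧ ∑ S ∈ F, segSum (vals f) S ^ 2 = r} by
        linarith [pow_pos hε 2])
  let N := (F₀.image fun S => tree S.bot).sup id + 1
  have hhigh : Bd fun t => if N ≤ tree t then vals f t / ε else 0 := by
    intro F hF
    let G := F.filter fun S => N ≤ tree S.bot
    have hsep : ∀ S ∈ F₀, ∀ S' ∈ G, Disjoint S.nodes S'.nodes := by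
      intro S hS S' hS'
      rw [disjoint_left]
      intro t ht ht'
      have h1 : tree S.bot ≤ (F₀.image fun S => tree S.bot).sup id :=
        le_sup (f := id) (mem_image_of_mem (fun S : Seg => tree S.bot) hS)
      have h2 := (mem_filter.1 hS').2
      rw [← Seg.tree_of_mem ht, Seg.tree_of_mem ht'] at h1
      simp only [N] at h2
      omega
    have hdis : Disj (F₀ ∪ G) := by
      intro a ha b hb hne
      simp only [coe_union, Set.mem_union, mem_coe] at ha hb
      rcases ha with ha | ha <;> rcases hb with hb | hb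
      · exact hF₀ ha hb hne
      · exact hsep a ha b hb
      · exact (hsep b hb a ha).symm
      · exact hF (mem_filter.1 ha).1 (mem_filter.1 hb).1 hne
    have hdd : Disjoint F₀ G := by
      rw [disjoint_left]
      intro S hS hS'
      exact disjoint_left.1 (hsep S hS S hS') S.bot_mem_nodes S.bot_mem_nodes
    have h := le_csSup (s := {r : ℝ | ∃ F, Disj F ∧ ∑ S ∈ F, segSum (vals f) S ^ 2 = r})
      ⟨‖f‖ ^ 2, by rintro _ ⟨F, hF, rfl⟩; exact sum_sq_vals_le f hF⟩ ⟨_, hdis, rfl⟩
    rw [sum_union hdd] at h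
    have hG : ∑ S ∈ G, segSum (vals f) S ^ 2 ≤ ε ^ 2 := by linarith
    calc ∑ S ∈ F, segSum (fun t => if N ≤ tree t then vals f t / ε else 0) S ^ 2
        = ∑ S ∈ F, if N ≤ tree S.bot then segSum (vals f) S ^ 2 / ε ^ 2 else 0 := by
          refine sum_congr rfl fun S _ => ?_
          split_ifs with h
          · rw [← div_pow]
            congr 1
            rw [segSum, segSum, sum_div]
            exact sum_congr rfl fun t ht => if_pos (Seg.tree_of_mem ht ▸ h)
          · rw [segSum, sum_eq_zero fun t ht => if_neg (Seg.tree_of_mem ht ▸ h)]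
            simp
      _ = (∑ S ∈ G, segSum (vals f) S ^ 2) / ε ^ 2 := by rw [sum_div, sum_filter]
      _ ≤ 1 := (div_le_one (pow_pos hε 2)).2 hG
  obtain ⟨u₀, hu₀⟩ := exists_tail (fun t => vals f t ^ 2) (fun _ => sq_nonneg _)
    (sum_sq_ev_le f) (ε := ε ^ 2 / (N + 1)) (by positivity)
  refine ⟨downCl u₀, down_downCl _, fun s hs hsub => ?_⟩
  refine opNorm_le_of_atoms _ (by linarith) fun a => ?_
  rw [apply_el]
  have hsplit : vals (f - func s (vals f)) = outside s (fun t => if N ≤ tree t then vals f t else 0)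
      + outside s (fun t => if N ≤ tree t then 0 else vals f t) := by
    funext t
    have h := congrFun (vals_func s (vals f)) t
    simp only [vals, inside] at h
    simp only [vals, outside, Pi.add_apply, FunLike.coe_sub, Pi.sub_apply, h]
    split_ifs <;> ring
  have h1 : |a.pair (outside s fun t => if N ≤ tree t then vals f t else 0)| ≤ ε := by
    have h := a.abs_pair_le (hhigh.outside hs)
    have e : (outside s fun t => if N ≤ tree t then vals f t else 0)
        = fun t => ε * outside s (fun t => if N ≤ tree t then vals f t / ε else 0) t := by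
      funext t
      simp only [outside]
      split_ifs <;> first | simp | field_simp
    rw [e]
    simp only [Atom.pair, segSum, ← mul_sum, mul_left_comm _ ε] at h ⊢
    rw [abs_mul, abs_of_pos hε]
    exact mul_le_of_le_one_right hε.le h
  have h2 : |a.pair (outside s fun t => if N ≤ tree t then 0 else vals f t)| ≤ ε := by
    let v : Node → ℝ := fun t => outside s (fun t => if N ≤ tree t then 0 else vals f t) t / ε
    have hb : Bd v := by
      intro F hF
      let A := (F.biUnion Seg.nodes).filter fun t => t ∉ s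
      calc ∑ S ∈ F, segSum v S ^ 2 = ∑ S ∈ F, segSum (fun t => if t ∈ A then v t else 0) S ^ 2 := by
            refine sum_congr rfl fun S hS => ?_
            congr 1
            refine segSum_congr fun t ht => ?_
            by_cases h : t ∈ s
            · simp [v, A, outside, h]
            · simp [A, h, show ∃ a ∈ F, t ∈ a.nodes from ⟨S, hS, ht⟩]
        _ ≤ N * ∑ t ∈ A, (if t ∈ A then v t else 0) ^ 2 :=
            sum_sq_low_le N A (fun t ht => if_neg ht)
              (fun t ht => by simp [v, outside, ht]) F hF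
        _ ≤ N * ((ε ^ 2 / (N + 1)) / ε ^ 2) := by
            refine mul_le_mul_of_nonneg_left ?_ (Nat.cast_nonneg N)
            refine le_trans ?_ (div_le_div_of_nonneg_right (hu₀ A ?_) (sq_nonneg ε))
            · rw [sum_div]
              refine sum_le_sum fun t ht => ?_
              rw [if_pos ht, ← div_pow]
              simp only [v, outside]
              split_ifs <;> first | exact le_rfl | simpa using sq_nonneg (vals f t / ε)
            · rw [disjoint_left]
              intro t ht ht'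
              exact (mem_filter.1 ht').2 (hsub (subset_downCl _ ht))
        _ ≤ 1 := by
            field_simp
            linarith
    have h := a.abs_pair_le hb
    have e : (outside s fun t => if N ≤ tree t then 0 else vals f t) = fun t => ε * v t := by
      funext t
      simp only [v]
      field_simp
    rw [e]
    simp only [Atom.pair, segSum, ← mul_sum, mul_left_comm _ ε] at h ⊢
    rw [abs_mul, abs_of_pos hε]
    exact mul_le_of_le_one_right hε.le h
  rw [hsplit]
  have : a.pair (outside s (fun t => if N ≤ tree t then vals f t else 0)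
      + outside s (fun t => if N ≤ tree t then 0 else vals f t))
      = a.pair (outside s fun t => if N ≤ tree t then vals f t else 0)
        + a.pair (outside s fun t => if N ≤ tree t then 0 else vals f t) := by
    simp [Atom.pair, segSum, sum_add_distrib, mul_add]
  rw [this]
  exact (abs_add_le _ _).trans (by linarith)

theorem func_smul_coord (s : Finset Node) (Φ : (X →L[ℝ] ℝ) →L[ℝ] ℝ) (g : Node → ℝ) :
    Φ (func s g) = ∑ t ∈ s, g t * Φ (coord t) := by
  simp [func, map_sum]

/-- Squares of the values of a bidual element on coordinates of low trees are summable. -/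
theorem sum_sq_bidual_low (Φ : (X →L[ℝ] ℝ) →L[ℝ] ℝ) (N : ℕ) (s : Finset Node) :
    ∑ t ∈ s, (if tree t < N then Φ (coord t) else 0) ^ 2 ≤ (N + 1) * ‖Φ‖ ^ 2 := by
  let z : Node → ℝ := fun t => if tree t < N then Φ (coord t) else 0
  change ∑ t ∈ s, z t ^ 2 ≤ _
  set q := ∑ t ∈ s, z t ^ 2 with hq
  by_contra hgt
  push Not at hgt
  have hq0 : 0 < q := lt_of_le_of_lt (by positivity) hgt
  let g : Node → ℝ := fun t => if t ∈ s then z t / Real.sqrt ((N + 1) * q) else 0
  have hb : Bd g := by
    intro F hF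
    refine le_trans (sum_sq_low_le N s (fun t ht => if_neg ht) (fun t ht => ?_) F hF) ?_
    · simp [z, not_lt.2 ht]
    · have : ∑ t ∈ s, g t ^ 2 = q / ((N + 1) * q) := by
        rw [hq, sum_div]
        refine sum_congr rfl fun t ht => ?_
        simp only [g, if_pos ht, div_pow]
        rw [Real.sq_sqrt (by positivity)]
      rw [this]
      field_simp
      linarith
  have h1 := (le_abs_self _).trans ((Φ.le_opNorm (func s g)).trans
    (mul_le_of_le_one_right (norm_nonneg Φ) (norm_func_le_of_bd (fun t ht => if_neg ht) hb)))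
  have h2 : Φ (func s g) = q / Real.sqrt ((N + 1) * q) := by
    rw [func_smul_coord, hq, sum_div]
    refine sum_congr rfl fun t ht => ?_
    simp only [g, if_pos ht, z]
    split_ifs <;> ring
  rw [h2, div_le_iff₀ (Real.sqrt_pos.2 (by positivity))] at h1
  have h3 := pow_le_pow_left₀ hq0.le h1 2
  rw [mul_pow, Real.sq_sqrt (by positivity)] at h3
  nlinarith

/-- A test function in high trees cannot add much to a nearly maximal one in low trees. -/
theorem bidual_high (Φ : (X →L[ℝ] ℝ) →L[ℝ] ℝ) {M : ℝ}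
    (hMle : ∀ g s, Bd g → (∀ t ∉ s, g t = 0) → Φ (func s g) ≤ M)
    (hM : 0 ≤ M) {η ε : ℝ} (hη : η = ε / (1 + M)) (hη0 : 0 < η)
    {g₀ : Node → ℝ} {u : Finset Node} (hg₀ : Bd g₀) (hu : ∀ t ∉ u, g₀ t = 0)
    (hlt : M - η ^ 2 < Φ (func u g₀)) {N : ℕ} (hu0 : ∀ t, N ≤ tree t → g₀ t = 0)
    {g : Node → ℝ} {s : Finset Node} (hg : Bd g) (hs : ∀ t ∉ s, g t = 0)
    (hlow : ∀ t, tree t < N → g t = 0) : Φ (func s g) ≤ ε := by
  set c := Real.sqrt (1 + η ^ 2) with hc
  have hc0 : 0 < c := Real.sqrt_pos.2 (by positivity)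
  have hcomb : Bd fun t => (g₀ t + η * g t) / c := by
    intro F hF
    have e : ∀ S : Seg, segSum (fun t => (g₀ t + η * g t) / c) S ^ 2
        = (segSum g₀ S ^ 2 + η ^ 2 * segSum g S ^ 2) / c ^ 2 := by
      intro S
      have : segSum (fun t => (g₀ t + η * g t) / c) S = (segSum g₀ S + η * segSum g S) / c := by
        simp [segSum, sum_add_distrib, mul_sum, ← sum_div]
      rw [this, div_pow]
      congr 1
      by_cases h : N ≤ tree S.bot
      · have : segSum g₀ S = 0 :=
          sum_eq_zero fun t ht => hu0 t (Seg.tree_of_mem ht ▸ h)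
        rw [this]
        ring
      · have : segSum g S = 0 :=
          sum_eq_zero fun t ht => hlow t (Seg.tree_of_mem ht ▸ not_le.1 h)
        rw [this]
        ring
    rw [sum_congr rfl fun S _ => e S, ← sum_div, sum_add_distrib, ← mul_sum,
      hc, Real.sq_sqrt (by positivity), div_le_one (by positivity)]
    nlinarith [hg₀ F hF, hg F hF, sq_nonneg η]
  have hsup : ∀ t ∉ u ∪ s, (g₀ t + η * g t) / c = 0 := fun t ht => by
    simp only [mem_union, not_or] at ht
    simp [hu t ht.1, hs t ht.2]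
  have hle := hMle _ (u ∪ s) hcomb hsup
  have e1 : Φ (func (u ∪ s) fun t => (g₀ t + η * g t) / c)
      = (Φ (func u g₀) + η * Φ (func s g)) / c := by
    rw [func_smul_coord, func_smul_coord, func_smul_coord,
      sum_subset (subset_union_left (s₁ := u) (s₂ := s)) fun t _ ht => by simp [hu t ht],
      sum_subset (subset_union_right (s₁ := u) (s₂ := s)) fun t _ ht => by simp [hs t ht],
      mul_sum, ← sum_add_distrib, sum_div]
    exact sum_congr rfl fun t _ => by ring
  rw [e1, div_le_iff₀ hc0] at hle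
  have hc1 : c ≤ 1 + η ^ 2 / 2 := by
    rw [hc, Real.sqrt_le_iff]
    exact ⟨by positivity, by nlinarith [sq_nonneg (η ^ 2)]⟩
  have h4 : M * c ≤ M * (1 + η ^ 2 / 2) := mul_le_mul_of_nonneg_left hc1 hM
  have h5 : η * Φ (func s g) ≤ η * (η * (1 + M)) := by nlinarith [sq_nonneg η]
  have h6 : η * (1 + M) = ε := by
    rw [hη]
    exact div_mul_cancel₀ _ (by positivity)
  rw [h6] at h5
  exact le_of_mul_le_mul_left h5 hη0

/-- The supremum of a bidual element on finitely supported test functions. -/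
theorem exists_bidual_sup (Φ : (X →L[ℝ] ℝ) →L[ℝ] ℝ) :
    ∃ M : ℝ, 0 ≤ M ∧ (∀ g s, Bd g → (∀ t ∉ s, g t = 0) → Φ (func s g) ≤ M) ∧
      ∀ δ : ℝ, 0 < δ → ∃ g s, Bd g ∧ (∀ t ∉ s, g t = 0) ∧ M - δ < Φ (func s g) := by
  let V := {r : ℝ | ∃ g s, Bd g ∧ (∀ t ∉ s, g t = 0) ∧ Φ (func s g) = r}
  have hV : BddAbove V := by
    refine ⟨‖Φ‖, ?_⟩
    rintro _ ⟨g, s, hg, hs, rfl⟩
    exact (le_abs_self _).trans ((Φ.le_opNorm _).trans
      (mul_le_of_le_one_right (norm_nonneg Φ) (norm_func_le_of_bd hs hg)))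
  have hz : Bd (fun _ : Node => (0 : ℝ)) := fun F _ => by simp [segSum]
  have h0 : (0 : ℝ) ∈ V := ⟨fun _ => 0, ∅, hz, fun _ _ => rfl, by simp [func]⟩
  refine ⟨sSup V, le_csSup hV h0, fun g s hg hs => le_csSup hV ⟨g, s, hg, hs, rfl⟩,
    fun δ hδ => ?_⟩
  obtain ⟨_, ⟨g, s, hg, hs, rfl⟩, hlt⟩ :=
    exists_lt_of_lt_csSup ⟨0, h0⟩ (show sSup V - δ < sSup V by linarith)
  exact ⟨g, s, hg, hs, hlt⟩

/-- A bidual element is small on test functions far away. -/
theorem exists_bidual_tail (Φ : (X →L[ℝ] ℝ) →L[ℝ] ℝ) {ε : ℝ} (hε : 0 < ε) :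
    ∃ s₀ : Finset Node, Down s₀ ∧ ∀ (g : Node → ℝ) (s : Finset Node), Bd g →
      (∀ t ∉ s, g t = 0) → (∀ t ∈ s₀, g t = 0) → Φ (func s g) ≤ 2 * ε := by
  obtain ⟨M, hM, hMle, hnear⟩ := exists_bidual_sup Φ
  obtain ⟨g₀, u, hg₀, hu, hlt⟩ := hnear ((ε / (1 + M)) ^ 2) (by positivity)
  let N := (u.image tree).sup id + 1
  have hu0 : ∀ t, N ≤ tree t → g₀ t = 0 := fun t ht => hu t fun hc => by
    have : tree t ≤ (u.image tree).sup id := le_sup (f := id) (mem_image_of_mem tree hc)
    simp only [N] at ht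
    omega
  have hhigh : ∀ (g : Node → ℝ) (s : Finset Node), Bd g → (∀ t ∉ s, g t = 0) →
      (∀ t, tree t < N → g t = 0) → Φ (func s g) ≤ ε := fun g s hg hs hlow =>
    bidual_high Φ hMle hM rfl (by positivity) hg₀ hu hlt hu0 hg hs hlow
  let z : Node → ℝ := fun t => if tree t < N then Φ (coord t) else 0
  have hz : ∀ s : Finset Node, ∑ t ∈ s, z t ^ 2 ≤ (N + 1) * ‖Φ‖ ^ 2 := sum_sq_bidual_low Φ N
  obtain ⟨u₀, hu₀⟩ := exists_tail (fun t => z t ^ 2) (fun _ => sq_nonneg _) hz
    (ε := ε ^ 2) (by positivity)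
  refine ⟨downCl u₀, down_downCl _, fun g s hg hs hg0 => ?_⟩
  have h1 := hhigh (fun t => if N ≤ tree t then g t else 0) s (by convert hg.trees (fun n => N ≤ n))
    (fun t ht => by simp [hs t ht]) (fun t ht => if_neg (not_le.2 ht))
  have e : Φ (func s g) = Φ (func s fun t => if N ≤ tree t then g t else 0)
      + ∑ t ∈ s.filter (fun t => t ∉ downCl u₀), g t * z t := by
    rw [func_smul_coord, func_smul_coord, sum_filter, ← sum_add_distrib]
    refine sum_congr rfl fun t _ => ?_
    simp only [z]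
    by_cases hc : t ∈ downCl u₀
    · simp [hg0 t hc]
    · by_cases hN : N ≤ tree t
      · simp [hN, hc, not_lt.2 hN]
      · simp [hN, hc, not_le.1 hN]
  have h2 : ∑ t ∈ s.filter (fun t => t ∉ downCl u₀), g t * z t ≤ 1 * ε := by
    refine (Real.sum_mul_le_sqrt_mul_sqrt _ _ _).trans ?_
    refine mul_le_mul (Real.sqrt_le_one.2 (hg.sum_sq_le _)) ?_ (Real.sqrt_nonneg _) zero_le_one
    rw [Real.sqrt_le_iff]
    refine ⟨hε.le, hu₀ _ ?_⟩
    rw [disjoint_left]
    exact fun t ht ht' => (mem_filter.1 ht').2 (subset_downCl _ ht)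
  linarith

theorem surjective_inclusion :
    Function.Surjective (NormedSpace.inclusionInDoubleDual ℝ X) := by
  intro Φ
  let w : Finset Node → X := fun s => ∑ t ∈ s, Φ (coord t) • ev t
  have hw : ∀ (f : X →L[ℝ] ℝ) s, f (w s) = Φ (func s (vals f)) := by
    intro f s
    simp [w, map_sum, func_smul_coord, vals, mul_comm]
  choose s hsd hs using fun n : ℕ =>
    exists_bidual_tail Φ (ε := 1 / ((n : ℝ) + 1)) (by positivity)
  let D : ℕ → Finset Node := fun n => (range (n + 1)).biUnion s
  have hDd : ∀ n, Down (D n) := by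
    intro n t ht j
    obtain ⟨m, hm, hm'⟩ := mem_biUnion.1 ht
    exact mem_biUnion.2 ⟨m, hm, hsd m t hm' j⟩
  have hclose : ∀ n U, Down U → D n ⊆ U → ‖w U - w (D n)‖ ≤ 2 * (1 / ((n : ℝ) + 1)) := by
    intro n U hU hsub
    obtain ⟨h, hh, hhx⟩ := exists_dual_vector'' ℝ (w U - w (D n))
    rw [show ‖w U - w (D n)‖ = h (w U - w (D n)) from hhx.symm, map_sub, hw, hw]
    have e : Φ (func U (vals h)) - Φ (func (D n) (vals h))
        = Φ (func U (outside (D n) (inside U (vals h)))) := by
      simp only [func_smul_coord]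
      rw [← sum_sdiff hsub, add_sub_cancel_right, ← sum_sdiff hsub (f := fun t =>
        outside (D n) (inside U (vals h)) t * Φ (coord t))]
      rw [sum_eq_zero (s := D n) fun t ht => by simp [outside, ht], add_zero]
      refine sum_congr rfl fun t ht => ?_
      simp [outside, inside, (mem_sdiff.1 ht).1, (mem_sdiff.1 ht).2]
    rw [e]
    refine hs n _ U (((bd_vals hh).inside hU).outside (hDd n)) (fun t ht => ?_) fun t ht => ?_
    · simp [outside, inside, ht]
    · simp [outside, show t ∈ D n from mem_biUnion.2 ⟨n, by simp, ht⟩]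
  have hmono : ∀ {m n}, m ≤ n → D m ⊆ D n := fun h =>
    biUnion_subset_biUnion_of_subset_left _ (range_mono (by omega))
  have hlim : Filter.Tendsto (fun N : ℕ => 2 * (1 / ((N : ℝ) + 1))) Filter.atTop (nhds 0) := by
    simpa using (tendsto_one_div_add_atTop_nhds_zero_nat (𝕜 := ℝ)).const_mul 2
  have hcauchy : CauchySeq fun n => w (D n) := by
    refine cauchySeq_of_le_tendsto_0' (fun N => 2 * (1 / ((N : ℝ) + 1))) (fun n m hnm => ?_) hlim
    rw [dist_comm, dist_eq_norm]
    exact hclose n (D m) (hDd m) (hmono hnm)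
  obtain ⟨x, hx⟩ := cauchySeq_tendsto_of_complete hcauchy
  refine ⟨x, ContinuousLinearMap.ext fun f => ?_⟩
  rw [NormedSpace.dual_def]
  refine eq_of_forall_dist_le fun ε hε => ?_
  have hC : 0 < 2 * ‖Φ‖ + 2 * ‖f‖ + 1 := by positivity
  obtain ⟨U, hU, hU'⟩ := exists_trunc f (ε := ε / (2 * ‖Φ‖ + 2 * ‖f‖ + 1)) (by positivity)
  obtain ⟨n, hn1, hn2⟩ := ((Filter.Tendsto.eventually (hlim)
    (eventually_le_nhds (show (0 : ℝ) < ε / (2 * ‖Φ‖ + 2 * ‖f‖ + 1) by positivity))).and
    (hx.eventually (Metric.closedBall_mem_nhds x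
      (show (0 : ℝ) < ε / (2 * ‖Φ‖ + 2 * ‖f‖ + 1) by positivity)))).exists
  set e := ε / (2 * ‖Φ‖ + 2 * ‖f‖ + 1) with he
  rw [dist_eq_norm] at hn2
  have hUD : Down (U ∪ D n) := by
    intro t ht j
    rcases mem_union.1 ht with h | h
    · exact mem_union_left _ (hU t h j)
    · exact mem_union_right _ (hDd n t h j)
  have a1 := hU' (U ∪ D n) hUD subset_union_left
  have a2 := hclose n (U ∪ D n) hUD subset_union_right
  have b1 : |Φ f - f (w (U ∪ D n))| ≤ ‖Φ‖ * (2 * e) := by
    rw [hw, ← map_sub, ← Real.norm_eq_abs]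
    exact (Φ.le_opNorm _).trans (mul_le_mul_of_nonneg_left a1 (norm_nonneg Φ))
  have b2 : |f (w (U ∪ D n)) - f (w (D n))| ≤ ‖f‖ * e := by
    rw [← map_sub, ← Real.norm_eq_abs]
    exact (f.le_opNorm _).trans (mul_le_mul_of_nonneg_left (a2.trans hn1) (norm_nonneg f))
  have b3 : |f (w (D n)) - f x| ≤ ‖f‖ * e := by
    rw [← map_sub, ← Real.norm_eq_abs]
    exact (f.le_opNorm _).trans (mul_le_mul_of_nonneg_left hn2 (norm_nonneg f))
  have he2 : (2 * ‖Φ‖ + 2 * ‖f‖ + 1) * e = ε := by
    rw [he]; field_simp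
  have he0 : 0 ≤ e := by positivity
  rw [Real.dist_eq, abs_le]
  have := abs_le.1 b1
  have := abs_le.1 b2
  have := abs_le.1 b3
  constructor <;> linarith

end Vale.Agent.P069
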